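import Vale.Agent.P219.CH.Cert.Moments

/-!
P219: the law of the cosine with an axis over the ball of `ℝⁿ`, `n = 2l + 3`: density
proportional to `(1 - c²)^l` on each half.
-/

namespace Vale.Agent.P219.CH.Cert

open MeasureTheory Set Filter
open scoped Pointwise

noncomputable section

/-- `u ↦ u / √(1 + u²)`, the cosine as a function of the cotangent. -/
def tcos (u : ℝ) : ℝ := u / Real.sqrt (1 + u ^ 2)

lemma hasDerivAt_tcos (u : ℝ) :
    HasDerivAt tcos (1 / Real.sqrt (1 + u ^ 2) ^ 3) u := by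
  have h1 : 0 < 1 + u ^ 2 := by positivity
  have hs : 0 < Real.sqrt (1 + u ^ 2) := Real.sqrt_pos.2 h1
  have e : Real.sqrt (1 + u ^ 2) ^ 2 = 1 + u ^ 2 := Real.sq_sqrt h1.le
  refine ((hasDerivAt_id u).div ((Real.hasDerivAt_sqrt h1.ne').comp u
    ((hasDerivAt_pow 2 u).const_add 1)) hs.ne').congr_deriv ?_
  simp only [Function.comp_apply, id_eq]
  push_cast
  field_simp
  linear_combination e

lemma one_sub_tcos_sq (u : ℝ) : 1 - tcos u ^ 2 = 1 / (1 + u ^ 2) := by
  have h1 : 0 < 1 + u ^ 2 := by positivity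
  rw [tcos, div_pow, Real.sq_sqrt h1.le]
  field_simp
  ring

lemma tcos_mono : Monotone tcos :=
  monotone_of_deriv_nonneg (fun u => (hasDerivAt_tcos u).differentiableAt) fun u => by
    rw [(hasDerivAt_tcos u).deriv]; positivity

lemma tcos_image : tcos '' Ioi 0 = Ioo 0 1 := by
  ext c
  constructor
  · rintro ⟨u, hu : (0 : ℝ) < u, rfl⟩
    have h1 : 0 < Real.sqrt (1 + u ^ 2) := Real.sqrt_pos.2 (by positivity)
    refine ⟨div_pos hu h1, (div_lt_one h1).2 ?_⟩
    exact Real.lt_sqrt_of_sq_lt (by linarith)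
  · rintro ⟨h0, h1⟩
    have h2 : 0 < 1 - c ^ 2 := by nlinarith
    refine ⟨c / Real.sqrt (1 - c ^ 2), div_pos h0 (Real.sqrt_pos.2 h2), ?_⟩
    have h3 : 0 < Real.sqrt (1 - c ^ 2) := Real.sqrt_pos.2 h2
    have e : 1 + (c / Real.sqrt (1 - c ^ 2)) ^ 2 = (1 / Real.sqrt (1 - c ^ 2)) ^ 2 := by
      rw [div_pow, div_pow, Real.sq_sqrt h2.le]
      field_simp
      ring
    rw [tcos, e, Real.sqrt_sq (by positivity)]
    field_simp

variable {k : ℕ}

/-- `ℝ^(k+1) ≃ ℝ × ℝᵏ`, splitting off the first coordinate. -/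
def splitE (k : ℕ) : E (k + 1) ≃ᵐ ℝ × E k :=
  (MeasurableEquiv.toLp 2 (Fin (k + 1) → ℝ)).symm.trans
    ((MeasurableEquiv.piFinSuccAbove (fun _ => ℝ) 0).trans
      ((MeasurableEquiv.refl ℝ).prodCongr (MeasurableEquiv.toLp 2 (Fin k → ℝ))))

lemma splitE_symm_zero (p : ℝ × E k) : (splitE k).symm p 0 = p.1 := rfl

lemma splitE_symm_succ (p : ℝ × E k) (i : Fin k) : (splitE k).symm p i.succ = p.2 i := rfl

lemma norm_splitE_symm (p : ℝ × E k) :
    ‖(splitE k).symm p‖ = Real.sqrt (p.1 ^ 2 + ‖p.2‖ ^ 2) := by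
  rw [EuclideanSpace.norm_eq, EuclideanSpace.norm_sq_eq]
  congr 1
  simp [Fin.sum_univ_succ, splitE_symm_zero, splitE_symm_succ]

lemma measurePreserving_splitE (k : ℕ) : MeasurePreserving (splitE k) volume volume := by
  refine (EuclideanSpace.volume_preserving_symm_measurableEquiv_toLp (Fin (k + 1))).trans ?_
  refine (volume_preserving_piFinSuccAbove (fun _ => ℝ) 0).trans ?_
  exact (MeasurePreserving.id volume).prod
    ((EuclideanSpace.volume_preserving_symm_measurableEquiv_toLp (Fin k)).symm _)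

/-- The integrand over the half ball in the coordinates `ℝ × ℝᵏ`. -/
def halfInd (F : ℝ → ℝ) (p : ℝ × E k) : ℝ :=
  {p : ℝ × E k | 0 < p.1 ∧ p.1 ^ 2 + ‖p.2‖ ^ 2 < 1}.indicator
    (fun p => F (p.1 / Real.sqrt (p.1 ^ 2 + ‖p.2‖ ^ 2))) p

lemma measurable_halfInd {F : ℝ → ℝ} (hF : Continuous F) : Measurable (halfInd (k := k) F) := by
  have hn : Continuous fun p : ℝ × E k => p.1 ^ 2 + ‖p.2‖ ^ 2 := by fun_prop
  refine Measurable.indicator (hF.measurable.comp (continuous_fst.measurable.div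
    hn.sqrt.measurable)) ?_
  exact ((isOpen_lt continuous_const continuous_fst).inter
    (isOpen_lt hn continuous_const)).measurableSet

lemma abs_div_norm_le (t : ℝ) (x : E k) : |t / Real.sqrt (t ^ 2 + ‖x‖ ^ 2)| ≤ 1 := by
  rw [abs_div, abs_of_nonneg (Real.sqrt_nonneg _)]
  exact div_le_one_of_le₀ (Real.le_sqrt_of_sq_le (by rw [sq_abs]; nlinarith [norm_nonneg x]))
    (Real.sqrt_nonneg _)

lemma abs_halfInd_le {F : ℝ → ℝ} {C : ℝ} (hC : ∀ c ∈ Icc (-1 : ℝ) 1, |F c| ≤ C) (p : ℝ × E k) :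
    |halfInd F p| ≤ (Icc (0 : ℝ) 1 ×ˢ Metric.closedBall (0 : E k) 1).indicator (fun _ => C) p := by
  unfold halfInd
  by_cases h : p ∈ {p : ℝ × E k | 0 < p.1 ∧ p.1 ^ 2 + ‖p.2‖ ^ 2 < 1}
  · obtain ⟨h1, h2⟩ := h
    rw [indicator_of_mem (show p ∈ {p : ℝ × E k | 0 < p.1 ∧ p.1 ^ 2 + ‖p.2‖ ^ 2 < 1} from ⟨h1, h2⟩),
      indicator_of_mem]
    · exact hC _ (abs_le.1 (abs_div_norm_le p.1 p.2))
    · refine ⟨⟨h1.le, by nlinarith [norm_nonneg p.2]⟩, ?_⟩
      rw [mem_closedBall_zero_iff]
      nlinarith [norm_nonneg p.2]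
  · rw [indicator_of_notMem h, abs_zero]
    exact indicator_nonneg (fun _ _ => (abs_nonneg _).trans (hC 0 (by norm_num))) p

lemma integrable_halfInd {F : ℝ → ℝ} (hF : Continuous F) :
    Integrable (halfInd (k := k) F) volume := by
  obtain ⟨C, hC⟩ := isCompact_Icc.exists_bound_of_continuousOn (hF.continuousOn (s := Icc (-1) 1))
  refine Integrable.mono' (g := (Icc (0 : ℝ) 1 ×ˢ Metric.closedBall (0 : E k) 1).indicator
    fun _ => C) ?_ (measurable_halfInd hF).aestronglyMeasurable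
    (Eventually.of_forall fun p => abs_halfInd_le (fun c hc => hC c hc) p)
  exact (integrable_indicator_iff (measurableSet_Icc.prod measurableSet_closedBall)).2
    (integrableOn_const (isCompact_Icc.prod (isCompact_closedBall _ _)).measure_lt_top.ne)

lemma integral_half_eq {F : ℝ → ℝ} (hn : 0 < k + 1) :
    ∫ v in Metric.ball (0 : E (k + 1)) 1 ∩ {v | 0 < v ⟨0, hn⟩}, F (v ⟨0, hn⟩ / ‖v‖) =
      ∫ p : ℝ × E k, halfInd F p := by
  have h0 : (⟨0, hn⟩ : Fin (k + 1)) = 0 := rfl
  rw [h0, ← ((measurePreserving_splitE k).symm _).setIntegral_preimage_emb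
    (splitE k).symm.measurableEmbedding, ← integral_indicator]
  · refine integral_congr_ae (Eventually.of_forall fun p => ?_)
    have hs : (splitE k).symm ⁻¹' (Metric.ball (0 : E (k + 1)) 1 ∩ {v | 0 < v 0}) =
        {p : ℝ × E k | 0 < p.1 ∧ p.1 ^ 2 + ‖p.2‖ ^ 2 < 1} := by
      ext q
      simp only [mem_preimage, mem_inter_iff, mem_ball_zero_iff, mem_ofPred_eq, splitE_symm_zero,
        norm_splitE_symm, Real.sqrt_lt' one_pos, one_pow]
      tauto
    simp only [hs, halfInd]
    congr 1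
    funext q
    rw [splitE_symm_zero, norm_splitE_symm]
  · exact (splitE k).symm.measurable (measurableSet_ball.inter
      (isOpen_lt continuous_const (PiLp.continuous_apply 2 _ _)).measurableSet)

/-- The integral over the half ball as an integral in the cotangent. -/
lemma integral_half_tcos {F : ℝ → ℝ} (hF : Continuous F) (hk : 0 < k) :
    ∃ C : ℝ, (∀ G : ℝ → ℝ, Continuous G → ∫ p : ℝ × E k, halfInd G p =
      C * ∫ u in Ioi (0 : ℝ), G (tcos u) / Real.sqrt (1 + u ^ 2) ^ (k + 1)) ∧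
      ∫ p : ℝ × E k, halfInd F p =
        C * ∫ u in Ioi (0 : ℝ), F (tcos u) / Real.sqrt (1 + u ^ 2) ^ (k + 1) := by
  set C := ∫ x in Metric.ball (0 : E k) 1, ‖x‖ with hC
  suffices h : ∀ G : ℝ → ℝ, Continuous G → ∫ p : ℝ × E k, halfInd G p =
      C * ∫ u in Ioi (0 : ℝ), G (tcos u) / Real.sqrt (1 + u ^ 2) ^ (k + 1) from ⟨C, h, h F hF⟩
  intro G hG
  have : Nonempty (Fin k) := ⟨⟨0, hk⟩⟩
  have hint := integrable_halfInd (k := k) hG
  set H : ℝ × E k → ℝ := fun q => ‖q.2‖ * halfInd G (‖q.2‖ * q.1, q.2) with hH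
  have hHm : Measurable H :=
    continuous_snd.norm.measurable.mul ((measurable_halfInd hG).comp
      (((continuous_snd.norm.mul continuous_fst).prodMk continuous_snd).measurable))
  have hsub : ∀ (x : E k) (f : ℝ → ℝ), x ≠ 0 → (∫ u, ‖x‖ * f (‖x‖ * u)) = ∫ t, f t := by
    intro x f hx
    rw [integral_const_mul, Measure.integral_comp_mul_left, smul_eq_mul, abs_inv, abs_norm,
      ← mul_assoc, mul_inv_cancel₀ (norm_ne_zero_iff.2 hx), one_mul]
  have hint' : Integrable (halfInd G) ((volume : Measure ℝ).prod (volume : Measure (E k))) := hint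
  obtain ⟨hsec, hnorm⟩ := (integrable_prod_iff' hint'.aestronglyMeasurable).1 hint'
  have hHint : Integrable H ((volume : Measure ℝ).prod (volume : Measure (E k))) := by
    refine (integrable_prod_iff' hHm.aestronglyMeasurable).2 ⟨?_, ?_⟩
    · filter_upwards [hsec, Measure.ae_ne volume (0 : E k)] with x hx hx0
      exact ((hx.comp_mul_left' (norm_ne_zero_iff.2 hx0)).const_mul ‖x‖)
    · refine hnorm.congr ?_
      filter_upwards [Measure.ae_ne volume (0 : E k)] with x hx0
      rw [← hsub x (fun t => ‖halfInd G (t, x)‖) hx0]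
      refine integral_congr_ae (Eventually.of_forall fun u => ?_)
      simp [hH, norm_mul]
  calc ∫ p : ℝ × E k, halfInd G p = ∫ x : E k, ∫ t : ℝ, halfInd G (t, x) :=
        integral_prod_symm _ hint'
    _ = ∫ x : E k, ∫ u : ℝ, H (u, x) := by
        refine integral_congr_ae ?_
        filter_upwards [Measure.ae_ne volume (0 : E k)] with x hx0
        exact (hsub x (fun t => halfInd G (t, x)) hx0).symm
    _ = ∫ u : ℝ, ∫ x : E k, H (u, x) := (integral_integral_swap hHint).symm
    _ = ∫ u, (Ioi (0 : ℝ)).indicator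
          (fun u => C * (G (tcos u) / Real.sqrt (1 + u ^ 2) ^ (k + 1))) u := by
        refine integral_congr_ae (Eventually.of_forall fun u => ?_)
        rcases le_or_gt u 0 with hu | hu
        · rw [indicator_of_notMem (show u ∉ Ioi (0 : ℝ) from not_lt.2 hu)]
          refine integral_eq_zero_of_ae (Eventually.of_forall fun x => ?_)
          have hx : ¬ (0 < ‖x‖ * u) := not_lt.2 (mul_nonpos_of_nonneg_of_nonpos (norm_nonneg x) hu)
          simp [hH, halfInd, hx]
        rw [indicator_of_mem (show u ∈ Ioi (0 : ℝ) from hu)]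
        set s := Real.sqrt (1 + u ^ 2) with hs
        have hs0 : 0 < s := Real.sqrt_pos.2 (by positivity)
        have hs2 : s ^ 2 = 1 + u ^ 2 := Real.sq_sqrt (by positivity)
        have e : (fun x : E k => H (u, x)) =
            (Metric.ball (0 : E k) s⁻¹).indicator (fun x => G (tcos u) * ‖x‖) := by
          funext x
          rcases eq_or_ne x 0 with rfl | hx0
          · rw [indicator_of_mem (by simpa using inv_pos.2 hs0)]
            simp [hH]
          have hx : 0 < ‖x‖ := norm_pos_iff.2 hx0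
          have hr : Real.sqrt ((‖x‖ * u) ^ 2 + ‖x‖ ^ 2) = ‖x‖ * s := by
            rw [show (‖x‖ * u) ^ 2 + ‖x‖ ^ 2 = (‖x‖ * s) ^ 2 by rw [mul_pow, mul_pow, hs2]; ring,
              Real.sqrt_sq (by positivity)]
          have hiff : (‖x‖ * u) ^ 2 + ‖x‖ ^ 2 < 1 ↔ ‖x‖ < s⁻¹ := by
            rw [← Real.sqrt_lt_sqrt_iff (by positivity), hr, Real.sqrt_one, lt_inv_comm₀ hx hs0,
              ← one_div, lt_div_iff₀ hx, mul_comm]
          have hq : ‖x‖ * u / (‖x‖ * s) = tcos u := by
            rw [tcos, mul_div_mul_left _ _ hx.ne']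
          by_cases h : ‖x‖ < s⁻¹
          · simp only [hH, halfInd]
            rw [indicator_of_mem (show ((‖x‖ * u, x) : ℝ × E k) ∈
                {p : ℝ × E k | 0 < p.1 ∧ p.1 ^ 2 + ‖p.2‖ ^ 2 < 1} from ⟨mul_pos hx hu, hiff.2 h⟩),
              indicator_of_mem (by simpa using h), hr, hq, mul_comm]
          · simp only [hH, halfInd]
            rw [indicator_of_notMem (fun hm => h (hiff.1 hm.2)),
              indicator_of_notMem (by simpa using h), mul_zero]
        show ∫ x : E k, H (u, x) = _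
        rw [e, integral_indicator measurableSet_ball, integral_const_mul]
        have hball : Metric.ball (0 : E k) s⁻¹ = s⁻¹ • Metric.ball (0 : E k) 1 := by
          rw [smul_unitBall_of_pos (inv_pos.2 hs0)]
        have := Measure.setIntegral_comp_smul_of_pos (volume : Measure (E k)) (fun x => ‖x‖)
          (s := Metric.ball (0 : E k) 1) (inv_pos.2 hs0)
        rw [← hball, smul_eq_mul] at this
        simp only [norm_smul, Real.norm_eq_abs, abs_of_pos (inv_pos.2 hs0), integral_const_mul,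
          ← hC, finrank_euclideanSpace, Fintype.card_fin] at this
        simp only [inv_pow] at this
        field_simp at this ⊢
        simp only [one_div] at this ⊢
        field_simp at this ⊢
        rw [pow_succ]
        linear_combination -this * G (tcos u)
    _ = C * ∫ u in Ioi (0 : ℝ), G (tcos u) / Real.sqrt (1 + u ^ 2) ^ (k + 1) := by
        rw [integral_indicator measurableSet_Ioi, integral_const_mul]

/-- In dimension `2l + 3` the cosine has density proportional to `(1 - c²)^l`. -/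
theorem law_odd (l : ℕ) (hn : 0 < 2 * l + 3) {F : ℝ → ℝ} (hF : Continuous F) :
    (∫ c in (0 : ℝ)..1, (1 - c ^ 2) ^ l) *
        ∫ v in Metric.ball (0 : E (2 * l + 3)) 1 ∩ {v | 0 < v ⟨0, hn⟩}, F (v ⟨0, hn⟩ / ‖v‖) =
      omega (2 * l + 3) / 2 * ∫ c in (0 : ℝ)..1, F c * (1 - c ^ 2) ^ l := by
  obtain ⟨C, hC, h1⟩ := integral_half_tcos (k := 2 * l + 2) hF (by omega)
  have key : ∀ G : ℝ → ℝ, Continuous G →
      ∫ v in Metric.ball (0 : E (2 * l + 3)) 1 ∩ {v | 0 < v ⟨0, hn⟩}, G (v ⟨0, hn⟩ / ‖v‖) =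
        C * ∫ c in (0 : ℝ)..1, G c * (1 - c ^ 2) ^ l := fun G hG => by
    rw [integral_half_eq (k := 2 * l + 2) hn, hC G hG, intervalIntegral.integral_of_le zero_le_one,
      integral_Ioc_eq_integral_Ioo, ← tcos_image]
    congr 1
    rw [integral_image_eq_integral_deriv_smul_of_monotoneOn measurableSet_Ioi
      (fun u _ => (hasDerivAt_tcos u).hasDerivWithinAt) (tcos_mono.monotoneOn _)]
    refine setIntegral_congr_fun measurableSet_Ioi fun u _ => ?_
    simp only [one_sub_tcos_sq, smul_eq_mul, div_pow, one_pow]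
    have hs : Real.sqrt (1 + u ^ 2) ^ (2 * l) = (1 + u ^ 2) ^ l := by
      rw [pow_mul, Real.sq_sqrt (by positivity)]
    rw [show 2 * l + 2 + 1 = 2 * l + 3 from rfl, pow_add, hs]
    field_simp
  have h2 := key (fun _ => 1) continuous_const
  have h3 : ∫ _v in Metric.ball (0 : E (2 * l + 3)) 1 ∩ {v | 0 < v ⟨0, hn⟩}, (1 : ℝ) =
      omega (2 * l + 3) / 2 := by
    rw [integral_half hn (fun _ => rfl) (integrableOn_of_bound measure_ball_lt_top measurable_const
      (C := 1) fun _ => by simp), integral_one_ball]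
  rw [h3] at h2
  simp only [one_mul] at h2
  rw [key F hF, h2]
  ring

end

end Vale.Agent.P219.CH.Cert
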