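import Vale.Agent.P219.CH.Cert.Profile
import Vale.Agent.P219.CH.Cert.Law
import Vale.Agent.P219.CH.Cert.Five.Fun

/-!
P219: the chord certificate in dimension five. On `[0, 2]` the profile is `h (r/2)`, beyond `2` it
is continued by `p/r + s/r²`; the pair inequality reduces to `f r c ≥ 0` on the diagonal `c = d`,
and `f` decreases up to `r = 2c` and increases afterwards.
-/

namespace Vale.Agent.P219.CH.Cert.Five

open MeasureTheory Filter Topology Set

noncomputable section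

/-- `K 2`. -/
def k0 : ℝ := h0 1

/-- Coefficient of `1/r` beyond `2`. -/
def cp : ℝ := 4 * (k0 + h1 1 / 2)

/-- Coefficient of `1/r²` beyond `2`. -/
def cs : ℝ := 4 * k0 - 2 * cp

/-- The profile. -/
def K (r : ℝ) : ℝ := if r ≤ 2 then h0 (r / 2) else cp / r + cs / r ^ 2

/-- Its derivative. -/
def dK (r : ℝ) : ℝ := if r ≤ 2 then h1 (r / 2) / 2 else -cp / r ^ 2 - 2 * cs / r ^ 3

/-- The weight of an end point. -/
def g (c : ℝ) : ℝ := gf (max 0 (min c 1))

lemma g_eq {c : ℝ} (hc : c ∈ Icc (0 : ℝ) 1) : g c = gf c := by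
  rw [g, min_eq_left hc.2, max_eq_right hc.1]

lemma continuous_g : Continuous g := by
  refine continuousOn_gf.comp_continuous (by fun_prop) fun c => ?_
  exact ⟨le_max_left _ _, max_le zero_le_one (min_le_right _ _)⟩

lemma params : cp = 4 * (a - 1 / 32 - 3 / 2 * k0) ∧ cs = 16 * k0 + 1 / 4 - 8 * a ∧
    117 / 10000 ≤ k0 ∧ k0 ≤ 146 / 10000 := by
  obtain ⟨h1', h2'⟩ := h0_one_bounds
  refine ⟨?_, ?_, h1', h2'⟩ <;> simp only [cs, cp, k0, h1_one] <;> ring

lemma half_mem {r : ℝ} (hr : 0 < r) (h2 : r ≤ 2) : r / 2 ∈ Icc (0 : ℝ) 1 :=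
  ⟨by linarith, by linarith⟩

lemma hasDerivAt_K {r : ℝ} (hr : 0 < r) : HasDerivAt K (dK r) r := by
  have ho : ∀ y : ℝ, y ≠ 0 → HasDerivAt (fun x => cp / x + cs / x ^ 2)
      (-cp / y ^ 2 - 2 * cs / y ^ 3) y := fun y hy => by
    refine (((hasDerivAt_const y cp).div (hasDerivAt_id y) hy).add
      ((hasDerivAt_const y cs).div (hasDerivAt_pow 2 y) (pow_ne_zero 2 hy))).congr_deriv ?_
    simp only [id_eq]
    push_cast
    field_simp
    ring
  rcases lt_trichotomy r 2 with h | h | h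
  · rw [dK, if_pos h.le]
    have := (hasDerivAt_h0 (x := r / 2) (by rw [abs_of_pos (by linarith)]; linarith)).comp r
      ((hasDerivAt_id r).div_const 2)
    refine (this.congr_deriv (by ring)).congr_of_eventuallyEq ?_
    filter_upwards [Iio_mem_nhds h] with y hy
    simp [K, le_of_lt (show y < 2 from hy)]
  · subst h
    rw [dK, if_pos le_rfl]
    have h1' : HasDerivWithinAt K (h1 (2 / 2) / 2) (Iic 2) 2 := by
      have hx : HasDerivWithinAt h0 (h1 (2 / 2)) (Iic 1) (2 / 2) := by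
        norm_num; exact hasDerivWithinAt_h0_one
      have := HasDerivWithinAt.comp (h := fun y : ℝ => y / 2) 2 hx (((hasDerivAt_id (2 : ℝ)).div_const 2).hasDerivWithinAt (s := Iic 2))
        (fun y hy => by show y / 2 ≤ 1; linarith [show y ≤ 2 from hy])
      exact (this.congr_deriv (by ring)).congr (fun y hy => by simp [K, show y ≤ 2 from hy])
        (by simp [K])
    have e : ∀ y : ℝ, 2 ≤ y → K y = cp / y + cs / y ^ 2 := fun y hy => by
      rcases hy.eq_or_lt with rfl | h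
      · simp [K, cs, cp, k0]; ring
      · simp [K, not_le.2 h]
    have h2' : HasDerivWithinAt K (h1 (2 / 2) / 2) (Ici 2) 2 := by
      refine (((ho 2 two_ne_zero).hasDerivWithinAt).congr (fun y hy => e y hy) (e 2 le_rfl)).congr_deriv ?_
      simp [cs, cp, k0]; ring
    simpa [hasDerivWithinAt_univ] using h1'.union h2'
  · rw [dK, if_neg (not_le.2 h)]
    refine (ho r hr.ne').congr_of_eventuallyEq ?_
    filter_upwards [Ioi_mem_nhds h] with y hy
    simp [K, not_le.2 (show 2 < y from hy)]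

lemma continuousOn_dK : ContinuousOn dK (Ioi 0) := by
  have h1' : ContinuousOn dK (Ioc 0 2) := by
    refine ContinuousOn.congr (f := fun r => h1 (r / 2) / 2) ?_ fun r hr => by simp [dK, hr.2]
    exact (continuousOn_h1.comp (by fun_prop) fun r hr => half_mem hr.1 hr.2).div_const 2
  have h2' : ContinuousOn dK (Ici 2) := by
    refine ContinuousOn.congr (f := fun r => -cp / r ^ 2 - 2 * cs / r ^ 3) ?_ fun r hr => ?_
    · refine ((continuousOn_const.div (by fun_prop) ?_).sub (continuousOn_const.div (by fun_prop) ?_))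
        <;> intro r hr <;> exact pow_ne_zero _ (by linarith [show 2 ≤ r from hr])
    · rcases (show (2 : ℝ) ≤ r from hr).eq_or_lt with rfl | h
      · simp [dK, cs, cp, k0]; ring
      · simp [dK, not_le.2 h]
  intro r hr
  rcases lt_trichotomy r 2 with h | h | h
  · exact ((h1'.mono Ioo_subset_Ioc_self).continuousAt (Ioo_mem_nhds hr h)).continuousWithinAt
  · subst h
    refine ((h1' 2 ⟨two_pos, le_rfl⟩).union (h2' 2 Set.self_mem_Ici)).mono fun y hy => ?_
    rcases le_or_gt y 2 with h | h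
    · exact Or.inl ⟨hy, h⟩
    · exact Or.inr h.le
  · exact ((h2'.mono Ioi_subset_Ici_self).continuousAt (Ioi_mem_nhds h)).continuousWithinAt

lemma K_nonneg {r : ℝ} (hr : 0 < r) : 0 ≤ K r := by
  rw [K]; split_ifs with h
  · exact h0_nonneg (half_mem hr h)
  · obtain ⟨e1, e2, hl, hh⟩ := params
    have h2 : 2 < r := not_le.1 h
    have : 0 ≤ cp * r + cs := by
      rw [e1, e2]
      nlinarith [a_bounds.1, a_bounds.2]
    rw [show cp / r + cs / r ^ 2 = (cp * r + cs) / r ^ 2 by field_simp]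
    positivity

lemma dK_nonpos {r : ℝ} (hr : 0 < r) : dK r ≤ 0 := by
  rw [dK]; split_ifs with h
  · linarith [h1_nonpos (half_mem hr h)]
  · obtain ⟨e1, e2, hl, hh⟩ := params
    have h2 : 2 < r := not_le.1 h
    have : 0 ≤ cp * r + 2 * cs := by
      have hp : 0 ≤ cp := by rw [e1]; linarith [a_bounds.1]
      have := h1_nonpos (x := 1) ⟨zero_le_one, le_rfl⟩
      simp only [cs, cp, k0] at hp ⊢
      nlinarith [mul_le_mul_of_nonneg_left h2.le hp]
    rw [show -cp / r ^ 2 - 2 * cs / r ^ 3 = -((cp * r + 2 * cs) / r ^ 3) by field_simp; ring]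
    have : 0 ≤ (cp * r + 2 * cs) / r ^ 3 := by positivity
    linarith

lemma dK_le {r : ℝ} (hr : 0 < r) : dK r ≤ K r / r :=
  (dK_nonpos hr).trans (div_nonneg (K_nonneg hr) hr.le)

lemma Q_inner {x d : ℝ} (hx0 : 0 < x) (hx : x ≤ 1) (hd0 : 0 ≤ d) (hd1 : d ≤ 1) :
    0 ≤ a + (1 - d ^ 2) * (h1 x / 2) + h0 x / (2 * x) * (3 + d ^ 2) - 4 * h0 x * d := by
  have hm : x ∈ Icc (0 : ℝ) 1 := ⟨hx0.le, hx⟩
  obtain ⟨hn, hle, hneg, hge⟩ := h0_nonneg hm, h0_le hm, h1_nonpos hm, h1_ge hm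
  have ha : 0 ≤ a - 2 * h0 x := by linarith [a_bounds.1]
  obtain ⟨z, hz, hz'⟩ : ∃ z, 0 ≤ z ∧ h0 x = 2 * x * z :=
    ⟨h0 x / (2 * x), div_nonneg hn (by linarith), by field_simp⟩
  rw [show h0 x / (2 * x) = z by rw [hz']; field_simp]
  rcases le_or_gt x (1 / 2) with h | h
  · have t1 := mul_nonneg hz (sq_nonneg (d - 4 * x))
    have t2 : (1 - d ^ 2) * (h1 x / 2) ≥ h1 x / 2 := by
      nlinarith [mul_nonpos_of_nonneg_of_nonpos (sq_nonneg d) hneg]
    have t3 : 16 * x ^ 2 * z ≤ 8 * x * z := by nlinarith [mul_nonneg hz hx0.le]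
    nlinarith [hz', mul_nonneg hz (sub_nonneg.2 h)]
  · have t1 : 0 ≤ (1 - d) * ((1 + d) * (h1 x / 2 - z) + 4 * h0 x) := by
      refine mul_nonneg (by linarith) ?_
      have : z ≤ h0 x := by nlinarith
      have h5 : -(2 * h0 x) ≤ h1 x / 2 - z := by linarith
      rcases le_or_gt 0 (h1 x / 2 - z) with h6 | h6
      · nlinarith [mul_nonneg (by linarith : (0 : ℝ) ≤ 1 + d) h6]
      · nlinarith [mul_le_mul_of_nonpos_right (by linarith : 1 + d ≤ 2) h6.le]
    nlinarith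

lemma Q_nonneg {r d : ℝ} (hr : 0 < r) (hd0 : 0 ≤ d) (hd1 : d ≤ 1) :
    0 ≤ profQ 5 a K dK r d := by
  unfold profQ
  rcases le_or_gt r 2 with h | h
  · have := Q_inner (x := r / 2) (by linarith) (by linarith) hd0 hd1
    simp only [K, dK, if_pos h]
    rw [show 2 * (r / 2) = r by ring] at this
    push_cast
    linarith
  · have hk := K_nonneg hr
    have hk1 := dK_nonpos hr
    obtain ⟨e1, e2, hl, hh⟩ := params
    obtain ⟨al, ah⟩ := a_bounds
    have hv : 0 ≤ a * r ^ 3 - 4 * cp * r ^ 2 + (2 * cp - 4 * cs) * r + cs := by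
      obtain ⟨t, ht, rfl⟩ : ∃ t, 0 ≤ t ∧ r = 2 + t := ⟨r - 2, by linarith, by ring⟩
      have v0 : 0 ≤ 8 * a - 12 * cp - 7 * cs := by rw [e1, e2]; linarith
      have v1 : 0 ≤ 12 * a - 14 * cp - 4 * cs := by rw [e1, e2]; linarith
      have v2 : 0 ≤ 6 * a - 4 * cp := by rw [e1]; linarith
      have e : a * (2 + t) ^ 3 - 4 * cp * (2 + t) ^ 2 + (2 * cp - 4 * cs) * (2 + t) + cs =
          (8 * a - 12 * cp - 7 * cs) + (12 * a - 14 * cp - 4 * cs) * t +
            (6 * a - 4 * cp) * t ^ 2 + a * t ^ 3 := by ring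
      rw [e]
      have : 0 ≤ a := by linarith
      positivity
    have hv' : 0 ≤ a + dK r + 3 * (K r / r) - 4 * K r := by
      rw [K, dK, if_neg (not_le.2 h), if_neg (not_le.2 h)]
      have := div_nonneg hv (pow_nonneg hr.le 3)
      refine this.trans (le_of_eq ?_)
      field_simp
      ring
    have t1 := mul_nonneg (sq_nonneg d) (div_nonneg hk hr.le)
    have t2 := mul_nonpos_of_nonneg_of_nonpos (sq_nonneg d) hk1
    have t3 := mul_le_mul_of_nonneg_left hd1 hk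
    push_cast
    nlinarith

/-- The pair gap on the diagonal. -/
def f (c r : ℝ) : ℝ :=
  a * r ^ 4 + (1 - c ^ 2) * r ^ 4 * dK r + (3 + c ^ 2) * r ^ 3 * K r - 4 * c * r ^ 4 * K r -
    c ^ 2 * r - 2 * c ^ 2 * g c

lemma f_eq {c r : ℝ} (hr : 0 < r) :
    f c r = r ^ 4 * profQ 5 a K dK r c - c ^ 2 * (r + 2 * g c) := by
  unfold f profQ
  push_cast
  field_simp
  ring

lemma continuousOn_f (c : ℝ) : ContinuousOn (f c) (Ioi 0) := by
  have hK : ContinuousOn K (Ioi 0) := fun r hr => (hasDerivAt_K hr).continuousAt.continuousWithinAt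
  have := continuousOn_dK
  unfold f
  fun_prop

lemma f_chord {c : ℝ} (hc : c ∈ Ioc (0 : ℝ) 1) : f c (2 * c) = 0 := by
  have h : 2 * c ≤ 2 := by linarith [hc.2]
  rw [f, g_eq ⟨hc.1.le, hc.2⟩, gf, K, dK, if_pos h, if_pos h, show 2 * c / 2 = c by ring]
  ring

/-- The increment factor of `f` below `2`. -/
lemma brace_nonneg {x c : ℝ} (hx : x ∈ Ioo (0 : ℝ) 1) (hc : 0 ≤ c) :
    0 ≤ (c + x) * (1 + 4 * x ^ 4 * h2 x + 12 * x ^ 3 * h1 x - 12 * x ^ 2 * h0 x) +
      32 * x ^ 3 * (4 * h0 x + x * h1 x) := by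
  have hm := Ioo_subset_Icc_self hx
  obtain ⟨hn, hle, hneg, hge⟩ := h0_nonneg hm, h0_le hm, h1_nonpos hm, h1_ge hm
  have hx2 : x ^ 2 ≤ 1 := by nlinarith [hx.1, hx.2]
  have hx3 : x ^ 3 ≤ 1 := pow_le_one₀ hx.1.le hx.2.le
  have e : 1 + 4 * x ^ 4 * h2 x + 12 * x ^ 3 * h1 x - 12 * x ^ 2 * h0 x =
      (1 - 8 * a * x ^ 3 - 12 * x ^ 2 * h0 x) + 4 * x ^ 4 * G3 x - 4 * x ^ 3 * h1 x +
        16 * x ^ 4 * (2 * h0 x + x * h1 x) := by
    have := hx.1.ne'
    unfold h2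
    field_simp
    ring
  have t1 : 0 ≤ 1 - 8 * a * x ^ 3 - 12 * x ^ 2 * h0 x := by
    have := mul_le_mul_of_nonneg_left hx3 (by linarith [a_bounds.1] : (0 : ℝ) ≤ a)
    have := mul_le_mul hx2 hle hn zero_le_one
    linarith [a_bounds.2]
  have t2 : 0 ≤ 2 * h0 x + x * h1 x := by
    nlinarith [mul_le_mul_of_nonpos_right hx.2.le hneg]
  have t3 : 0 ≤ 4 * h0 x + x * h1 x := by linarith
  have t4 := mul_nonneg (pow_nonneg hx.1.le 4) (G3_nonneg hm)
  have t5 := mul_nonpos_of_nonneg_of_nonpos (pow_nonneg hx.1.le 3) hneg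
  have t6 := mul_nonneg (pow_nonneg hx.1.le 4) t2
  refine add_nonneg (mul_nonneg (by linarith [hx.1]) ?_)
    (mul_nonneg (mul_nonneg (by norm_num) (pow_nonneg hx.1.le 3)) t3)
  rw [e]; linarith

/-- The derivative of `f` below `2`. -/
def df (c r : ℝ) : ℝ :=
  (r / 2 - c) * ((c + r / 2) * (1 + 4 * (r / 2) ^ 4 * h2 (r / 2) + 12 * (r / 2) ^ 3 * h1 (r / 2) -
    12 * (r / 2) ^ 2 * h0 (r / 2)) + 32 * (r / 2) ^ 3 * (4 * h0 (r / 2) + r / 2 * h1 (r / 2)))

lemma hasDerivAt_f {c r : ℝ} (hr : r ∈ Ioo (0 : ℝ) 2) : HasDerivAt (f c) (df c r) r := by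
  have hx : r / 2 ∈ Ioo (0 : ℝ) 1 := ⟨by linarith [hr.1], by linarith [hr.2]⟩
  have d0 : HasDerivAt (fun y => h0 (y / 2)) (h1 (r / 2) / 2) r := by
    have := (hasDerivAt_h0 (x := r / 2) (by rw [abs_of_pos hx.1]; exact hx.2)).comp r
      ((hasDerivAt_id r).div_const 2)
    exact this.congr_deriv (by ring)
  have d1 : HasDerivAt (fun y => h1 (y / 2) / 2) (h2 (r / 2) / 4) r := by
    have := ((hasDerivAt_h1 hx).comp r ((hasDerivAt_id r).div_const 2)).div_const 2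
    exact this.congr_deriv (by ring)
  have p4 := hasDerivAt_pow 4 r
  have p3 := hasDerivAt_pow 3 r
  have h := (((((p4.const_mul a).add ((p4.const_mul (1 - c ^ 2)).mul d1)).add
    ((p3.const_mul (3 + c ^ 2)).mul d0)).sub ((p4.const_mul (4 * c)).mul d0)).sub
    ((hasDerivAt_id r).const_mul (c ^ 2))).sub_const (2 * c ^ 2 * g c)
  refine (h.congr_of_eventuallyEq ?_).congr_deriv ?_
  · filter_upwards [Iio_mem_nhds hr.2] with y hy
    simp [f, K, dK, le_of_lt (show y < 2 from hy)]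
  · simp only [df]
    push_cast
    linear_combination 4 * (r / 2) ^ 2 * ode hx

lemma f_mono_outer {c : ℝ} (hc : c ∈ Ioc (0 : ℝ) 1) : MonotoneOn (f c) (Ici 2) := by
  refine monotoneOn_of_hasDerivWithinAt_nonneg
    (f' := fun r => 4 * a * r ^ 3 - 12 * cp * c * r ^ 2 +
      (4 * cp * (1 + c ^ 2) - 8 * cs * c) * r + cs * (1 + 3 * c ^ 2) - c ^ 2)
    (convex_Ici 2) ((continuousOn_f c).mono fun r hr => lt_of_lt_of_le two_pos (show 2 ≤ r from hr))
    ?_ ?_ <;> rw [interior_Ici] <;> intro r hr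
  · have hr2 : 2 < r := hr
    have h := ((((hasDerivAt_pow 4 r).const_mul a).sub
      ((hasDerivAt_pow 3 r).const_mul (4 * cp * c))).add
      ((hasDerivAt_pow 2 r).const_mul ((3 + c ^ 2) * cp - (1 - c ^ 2) * cp - 4 * c * cs))).add
      ((hasDerivAt_id r).const_mul ((3 + c ^ 2) * cs - 2 * (1 - c ^ 2) * cs - c ^ 2))
    refine (((h.sub_const (2 * c ^ 2 * g c)).congr_of_eventuallyEq ?_).congr_deriv ?_).hasDerivWithinAt
    · filter_upwards [Ioi_mem_nhds hr2] with y hy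
      have h2 : 2 < y := hy
      have : y ≠ 0 := by linarith
      simp only [f, K, dK, if_neg (not_le.2 h2), Pi.add_apply, Pi.sub_apply, id_eq]
      field_simp
      ring
    · push_cast; ring
  · obtain ⟨e1, e2, hl, hh⟩ := params
    obtain ⟨al, ah⟩ := a_bounds
    obtain ⟨t, ht, rfl⟩ : ∃ t, 0 ≤ t ∧ r = 2 + t := ⟨r - 2, by linarith [show 2 < r from hr], by ring⟩
    obtain ⟨hc0, hc1⟩ := hc
    have v0 : 0 ≤ 32 * a - 48 * cp * c + 8 * cp * (1 + c ^ 2) - 16 * cs * c +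
        cs * (1 + 3 * c ^ 2) - c ^ 2 := by
      have e : 32 * a - 48 * cp * c + 8 * cp * (1 + c ^ 2) - 16 * cs * c + cs * (1 + 3 * c ^ 2) - c ^ 2 =
          (1 - c) * (32 * a + 8 * cp + cs) + c * (32 * a - 32 * cp - 12 * cs - 1) +
            (c - c ^ 2) * (1 - 8 * cp - 3 * cs) := by ring
      rw [e, show 32 * a - 32 * cp - 12 * cs - 1 = 0 by rw [e1, e2]; ring, mul_zero, add_zero]
      refine add_nonneg (mul_nonneg (by linarith) ?_) (mul_nonneg (by nlinarith) ?_) <;>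
        rw [e1, e2] <;> linarith
    have hp : 0 ≤ cp := by rw [e1]; linarith
    have hcp : cp * c ≤ cp := mul_le_of_le_one_right hp hc1
    have v1 : 0 ≤ 48 * a - 48 * cp * c + 4 * cp * (1 + c ^ 2) - 8 * cs * c := by
      have hs : cs * c ≤ 1 / 20 := by
        have hsb : cs ≤ 1 / 20 ∧ -(1 / 10) ≤ cs := by rw [e2]; constructor <;> linarith
        nlinarith
      have := mul_nonneg hp (sq_nonneg c)
      rw [e1] at hcp hp this
      rw [e1]
      nlinarith
    have v2 : 0 ≤ 24 * a - 12 * cp * c := by rw [e1] at hcp ⊢; linarith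
    have e : 4 * a * (2 + t) ^ 3 - 12 * cp * c * (2 + t) ^ 2 +
        (4 * cp * (1 + c ^ 2) - 8 * cs * c) * (2 + t) + cs * (1 + 3 * c ^ 2) - c ^ 2 =
        (32 * a - 48 * cp * c + 8 * cp * (1 + c ^ 2) - 16 * cs * c + cs * (1 + 3 * c ^ 2) - c ^ 2) +
          (48 * a - 48 * cp * c + 4 * cp * (1 + c ^ 2) - 8 * cs * c) * t +
          (24 * a - 12 * cp * c) * t ^ 2 + 4 * a * t ^ 3 := by ring
    rw [e]
    have : 0 ≤ 4 * a * t ^ 3 := mul_nonneg (by linarith) (pow_nonneg ht 3)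
    have := mul_nonneg v1 ht
    have := mul_nonneg v2 (sq_nonneg t)
    linarith

lemma f_nonneg {c r : ℝ} (hc : c ∈ Ioc (0 : ℝ) 1) (hr : 0 < r) : 0 ≤ f c r := by
  rw [← f_chord hc]
  have h2c : 2 * c ≤ 2 := by linarith [hc.2]
  have hc2 : 0 < 2 * c := by linarith [hc.1]
  have hup : MonotoneOn (f c) (Icc (2 * c) 2) := by
    refine monotoneOn_of_hasDerivWithinAt_nonneg (f' := df c) (convex_Icc _ _)
      ((continuousOn_f c).mono fun y hy => hc2.trans_le hy.1) ?_ ?_ <;>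
      rw [interior_Icc] <;> intro y hy
    · exact (hasDerivAt_f ⟨hc2.trans hy.1, hy.2⟩).hasDerivWithinAt
    · exact mul_nonneg (by linarith [hy.1])
        (brace_nonneg ⟨by linarith [hy.1], by linarith [hy.2]⟩ hc.1.le)
  rcases le_total r (2 * c) with h | h
  · refine antitoneOn_of_hasDerivWithinAt_nonpos (f' := df c) (convex_Icc r (2 * c))
      ((continuousOn_f c).mono fun y hy => hr.trans_le hy.1) ?_ ?_
      ⟨le_rfl, h⟩ ⟨h, le_rfl⟩ h <;> rw [interior_Icc] <;> intro y hy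
    · exact (hasDerivAt_f ⟨hr.trans hy.1, hy.2.trans_le h2c⟩).hasDerivWithinAt
    · exact mul_nonpos_of_nonpos_of_nonneg (by linarith [hy.2])
        (brace_nonneg ⟨by linarith [hy.1], by linarith [hy.2]⟩ hc.1.le)
  rcases le_total r 2 with h' | h'
  · exact hup ⟨le_rfl, h2c⟩ ⟨h, h'⟩ h
  · exact (hup ⟨le_rfl, h2c⟩ ⟨h2c, le_rfl⟩ h2c).trans (f_mono_outer hc Set.self_mem_Ici h' h')

lemma pair {r c d : ℝ} (hr : 0 < r) (hc : 0 < c) (hc1 : c ≤ 1) (hd : 0 < d) (hd1 : d ≤ 1) :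
    2 * c * d * (r + g c + g d) ≤
      r ^ (5 - 1) * (profQ 5 a K dK r c + profQ 5 a K dK r d) := by
  have hq : 0 ≤ profQ 5 a K dK r c + profQ 5 a K dK r d :=
    add_nonneg (Q_nonneg hr hc.le hc1) (Q_nonneg hr hd.le hd1)
  rcases le_or_gt (r + g c + g d) 0 with h | h
  · exact (mul_nonpos_of_nonneg_of_nonpos (by positivity) h).trans (by positivity)
  set m := (c + d) / 2 with hm
  have hm' : m ∈ Ioc (0 : ℝ) 1 := ⟨by positivity, by linarith⟩
  have hcc : g c + g d ≤ 2 * g m := by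
    rw [g_eq ⟨hc.le, hc1⟩, g_eq ⟨hd.le, hd1⟩, g_eq ⟨hm'.1.le, hm'.2⟩]
    have := concaveOn_gf.2 (show c ∈ Icc (0 : ℝ) 1 from ⟨hc.le, hc1⟩)
      (show d ∈ Icc (0 : ℝ) 1 from ⟨hd.le, hd1⟩) (by norm_num : (0 : ℝ) ≤ 1 / 2)
      (by norm_num : (0 : ℝ) ≤ 1 / 2) (by norm_num)
    simp only [smul_eq_mul] at this
    rw [show 1 / 2 * c + 1 / 2 * d = m by rw [hm]; ring] at this
    linarith
  have hconv : 2 * profQ 5 a K dK r m ≤ profQ 5 a K dK r c + profQ 5 a K dK r d := by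
    have := mul_nonneg (sub_nonneg.2 (dK_le hr)) (sq_nonneg (c - d))
    simp only [profQ, hm]
    nlinarith
  have hf := f_nonneg hm' hr
  rw [f_eq hr] at hf
  have hcd : c * d ≤ m ^ 2 := by rw [hm]; nlinarith [sq_nonneg (c - d)]
  calc 2 * c * d * (r + g c + g d) ≤ 2 * m ^ 2 * (r + 2 * g m) := by
        have := mul_le_mul hcd (by linarith : r + g c + g d ≤ r + 2 * g m) h.le (sq_nonneg m)
        linarith
    _ ≤ r ^ (5 - 1) * (2 * profQ 5 a K dK r m) := by norm_num; linarith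
    _ ≤ _ := mul_le_mul_of_nonneg_left hconv (by positivity)

lemma g_nonpos {c : ℝ} (hc : c ∈ Icc (0 : ℝ) 1) : g c ≤ 0 := (g_eq hc).le.trans (gf_nonpos hc)

lemma balance (hn : 0 < 5) : a * (5 : ℕ) * omega 5 = omega 5 + 2 * (5 : ℕ) *
    ∫ v in Metric.ball (0 : E 5) 1 ∩ {v | 0 < v ⟨0, hn⟩},
      g (v ⟨0, hn⟩ / ‖v‖) * (v ⟨0, hn⟩ / ‖v‖) := by
  have h := law_odd 1 hn (F := fun c => g c * c) (continuous_g.mul continuous_id)
  simp only [pow_one] at h
  have hJ : ∫ c in (0 : ℝ)..1, g c * c * (1 - c ^ 2) = 2 * a / 3 - 2 / 15 := by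
    rw [← gf_balance]
    refine intervalIntegral.integral_congr fun c hc => ?_
    rw [uIcc_of_le zero_le_one] at hc
    simp [g_eq hc]
  have hW : ∫ c in (0 : ℝ)..1, (1 - c ^ 2) = 2 / 3 := by
    rw [intervalIntegral.integral_sub (Continuous.intervalIntegrable continuous_const 0 1)
      ((continuous_pow 2).intervalIntegrable 0 1)]
    norm_num
  rw [hJ, hW] at h
  have h' : (2 / 3 : ℝ) * ∫ v in Metric.ball (0 : E 5) 1 ∩ {v | 0 < v ⟨0, hn⟩},
      g (v ⟨0, hn⟩ / ‖v‖) * (v ⟨0, hn⟩ / ‖v‖) = omega 5 / 2 * (2 * a / 3 - 2 / 15) := h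
  simp only [Nat.cast_ofNat]
  linarith

/-- The profile in dimension five. -/
def profile : Profile 5 where
  a := a
  a_nonneg := by linarith [a_bounds.1]
  g := g
  g_cont := continuous_g
  g_nonpos _ hc := g_nonpos hc
  K := K
  dK := dK
  hasDeriv _ hr := hasDerivAt_K hr
  dK_cont := continuousOn_dK
  K_nonneg _ hr := K_nonneg hr
  dK_le _ hr := dK_le hr
  Q_nonneg _ _ hr h0 h1 := Q_nonneg hr h0 h1
  pair _ _ _ hr hc hc1 hd hd1 := pair hr hc hc1 hd hd1
  balance := balance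

end

end Vale.Agent.P219.CH.Cert.Five

namespace Vale.Agent.P219.CH

/-- The certificate in dimension five. -/
noncomputable def cert5 : Cert 5 := Cert.Five.profile.toCert (by norm_num)

end Vale.Agent.P219.CH
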