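import Vale.Agent.P219.CH.Interfaces

/-!
Moments of the cosine with a fixed axis over the unit ball of Euclidean space.
-/

namespace Vale.Agent.P219.CH.Cert

open MeasureTheory Set
open scoped RealInnerProductSpace

noncomputable section

variable {n : ℕ}

/-- The cosine of the angle between `v` and the axis `i`. -/
def cosc (i : Fin n) (v : E n) : ℝ := v i / ‖v‖

lemma abs_cosc_le (i : Fin n) (v : E n) : |cosc i v| ≤ 1 := by
  rw [cosc, abs_div, abs_norm]
  refine div_le_one_of_le₀ ?_ (norm_nonneg v)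
  simpa using PiLp.norm_apply_le v i

lemma measurable_cosc (i : Fin n) : Measurable (cosc i) :=
  (PiLp.continuous_apply 2 _ i).measurable.div continuous_norm.measurable

lemma integrableOn_of_bound {S : Set (E n)} (hS : volume S < ⊤) {h : E n → ℝ} (hm : Measurable h)
    {C : ℝ} (hC : ∀ v, |h v| ≤ C) : IntegrableOn h S := by
  have : IsFiniteMeasure (volume.restrict S) := ⟨by simpa using hS⟩
  exact Integrable.of_bound hm.aestronglyMeasurable C (Filter.Eventually.of_forall hC)

lemma integrableOn_ball {h : E n → ℝ} (hm : Measurable h) {C : ℝ} (hC : ∀ v, |h v| ≤ C) :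
    IntegrableOn h (Metric.ball (0 : E n) 1) :=
  integrableOn_of_bound measure_ball_lt_top hm hC

lemma integral_isometry (T : E n ≃ₗᵢ[ℝ] E n) (h : E n → ℝ) :
    ∫ v in Metric.ball (0 : E n) 1, h (T v) = ∫ v in Metric.ball (0 : E n) 1, h v := by
  have := (T.measurePreserving).setIntegral_preimage_emb T.toMeasurableEquiv.measurableEmbedding h
    (Metric.ball (0 : E n) 1)
  rwa [T.preimage_ball, map_zero] at this

/-- The law of the cosine does not depend on the axis. -/
lemma integral_inner_eq (i : Fin n) {w : E n} (hw : ‖w‖ = 1) (F : ℝ → ℝ) :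
    ∫ v in Metric.ball (0 : E n) 1, F (⟪w, v⟫ / ‖v‖) =
      ∫ v in Metric.ball (0 : E n) 1, F (cosc i v) := by
  set e : E n := EuclideanSpace.single i (1 : ℝ) with he
  have hen : ‖e‖ = 1 := by simp [he]
  set T := (ℝ ∙ (w - e))ᗮ.reflection with hT
  have hTw : T w = e := Submodule.reflection_sub (by rw [hw, hen])
  rw [← integral_isometry T fun v => F (cosc i v)]
  refine integral_congr_ae (Filter.Eventually.of_forall fun v => ?_)
  have h1 : ⟪w, v⟫ = T v i := by
    rw [← T.inner_map_map w v, hTw, he, EuclideanSpace.inner_single_left]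
    simp
  simp only [cosc, h1, LinearIsometryEquiv.norm_map]

lemma integral_inner_pow (i : Fin n) (w : E n) (k : ℕ) (hw : w ≠ 0) :
    ∫ v in Metric.ball (0 : E n) 1, (⟪w, v⟫ / ‖v‖) ^ k =
      ‖w‖ ^ k * ∫ v in Metric.ball (0 : E n) 1, cosc i v ^ k := by
  have hn : 0 < ‖w‖ := norm_pos_iff.2 hw
  have hu : ‖‖w‖⁻¹ • w‖ = 1 := by simp [norm_smul, hn.ne']
  rw [← integral_inner_eq i hu fun x => x ^ k, ← integral_const_mul]
  refine integral_congr_ae (Filter.Eventually.of_forall fun v => ?_)
  simp only [real_inner_smul_left]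
  rw [← mul_pow]
  congr 1
  field_simp

lemma sum_cosc_sq {v : E n} (hv : v ≠ 0) : ∑ i, cosc i v ^ 2 = 1 := by
  simp only [cosc, div_pow, ← Finset.sum_div, EuclideanSpace.norm_sq_eq, Real.norm_eq_abs, sq_abs]
  refine div_self ?_
  have := EuclideanSpace.norm_sq_eq v
  simp only [Real.norm_eq_abs, sq_abs] at this
  rw [← this]
  exact pow_ne_zero 2 (norm_ne_zero_iff.2 hv)

lemma integral_one_ball : ∫ _v in Metric.ball (0 : E n) 1, (1 : ℝ) = omega n := by
  simp [omega, Measure.real]

lemma measurable_pow_cosc (i : Fin n) (k : ℕ) : Measurable fun v => cosc i v ^ k :=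
  (measurable_cosc i).pow_const k

lemma bound_pow_cosc (i : Fin n) (k : ℕ) (v : E n) : |cosc i v ^ k| ≤ 1 := by
  rw [abs_pow]; exact pow_le_one₀ (abs_nonneg _) (abs_cosc_le i v)

lemma cosc_two (hn : 0 < n) :
    ∫ v in Metric.ball (0 : E n) 1, cosc ⟨0, hn⟩ v ^ 2 = omega n / n := by
  have : Nonempty (Fin n) := ⟨⟨0, hn⟩⟩
  have hall : ∀ i, ∫ v in Metric.ball (0 : E n) 1, cosc i v ^ 2 =
      ∫ v in Metric.ball (0 : E n) 1, cosc ⟨0, hn⟩ v ^ 2 := fun i => by
    rw [← integral_inner_eq ⟨0, hn⟩ (w := EuclideanSpace.single i (1 : ℝ)) (by simp) fun x => x ^ 2]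
    simp [cosc, EuclideanSpace.inner_single_left]
  have hsum : ∑ i, ∫ v in Metric.ball (0 : E n) 1, cosc i v ^ 2 = omega n := by
    rw [← integral_finsetSum _ fun i _ => integrableOn_ball (measurable_pow_cosc i 2)
      (bound_pow_cosc i 2), ← integral_one_ball]
    refine integral_congr_ae ?_
    filter_upwards [ae_restrict_of_ae (Measure.ae_ne volume (0 : E n))] with v hv
    exact sum_cosc_sq hv
  simp only [hall, Finset.sum_const, Finset.card_univ, Fintype.card_fin, nsmul_eq_mul] at hsum
  rw [eq_div_iff (by positivity)]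
  linarith

lemma cosc_four (hn : 0 < n) :
    ∫ v in Metric.ball (0 : E n) 1, cosc ⟨0, hn⟩ v ^ 4 = 3 * omega n / (n * (n + 2)) := by
  have : Nonempty (Fin n) := ⟨⟨0, hn⟩⟩
  set A := ∫ v in Metric.ball (0 : E n) 1, cosc ⟨0, hn⟩ v ^ 4 with hA
  have hint : ∀ i j, IntegrableOn (fun v => cosc i v ^ 2 * cosc j v ^ 2) (Metric.ball (0 : E n) 1) :=
    fun i j => integrableOn_ball ((measurable_pow_cosc i 2).mul (measurable_pow_cosc j 2)) (C := 1)
      fun v => by
        rw [abs_mul]; exact mul_le_one₀ (bound_pow_cosc i 2 v) (abs_nonneg _) (bound_pow_cosc j 2 v)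
  have hdiag : ∀ i, ∫ v in Metric.ball (0 : E n) 1, cosc i v ^ 4 = A := fun i => by
    rw [hA, ← integral_inner_eq ⟨0, hn⟩ (w := EuclideanSpace.single i (1 : ℝ)) (by simp) fun x => x ^ 4]
    simp [cosc, EuclideanSpace.inner_single_left]
  have hoff : ∀ i j, i ≠ j →
      ∫ v in Metric.ball (0 : E n) 1, cosc i v ^ 2 * cosc j v ^ 2 = A / 3 := by
    intro i j hij
    set ei : E n := EuclideanSpace.single i (1 : ℝ) with hei
    set ej : E n := EuclideanSpace.single j (1 : ℝ) with hej
    have hn1 : ‖ei + ej‖ ^ 2 = 2 ∧ ‖ei - ej‖ ^ 2 = 2 := by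
      rw [norm_add_sq_real, norm_sub_sq_real]
      simp [hei, hej, EuclideanSpace.inner_single_left, hij]
      norm_num
    have h0 : ∀ u : E n, ‖u‖ ^ 2 = 2 →
        ∫ v in Metric.ball (0 : E n) 1, (⟪u, v⟫ / ‖v‖) ^ 4 = 4 * A := fun u hu => by
      rw [integral_inner_pow ⟨0, hn⟩ u 4 (by rintro rfl; simp at hu),
        show ‖u‖ ^ 4 = (‖u‖ ^ 2) ^ 2 by ring, hu]
      norm_num
      rfl
    have p1 : IntegrableOn (fun v => cosc i v ^ 4) (Metric.ball (0 : E n) 1) :=
      integrableOn_ball (measurable_pow_cosc i 4) (bound_pow_cosc i 4)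
    have p2 : IntegrableOn (fun v => cosc j v ^ 4) (Metric.ball (0 : E n) 1) :=
      integrableOn_ball (measurable_pow_cosc j 4) (bound_pow_cosc j 4)
    have q : ∀ u : E n, IntegrableOn (fun v => (⟪u, v⟫ / ‖v‖) ^ 4) (Metric.ball (0 : E n) 1) := fun u =>
      integrableOn_ball (((continuous_const.inner continuous_id).measurable.div
        continuous_norm.measurable).pow_const 4) (C := ‖u‖ ^ 4) fun v => by
        rw [abs_pow]
        refine pow_le_pow_left₀ (abs_nonneg _) ?_ 4
        rw [abs_div, abs_norm]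
        exact div_le_of_le_mul₀ (norm_nonneg v) (norm_nonneg u) (abs_real_inner_le_norm u v)
    have e : ∫ v in Metric.ball (0 : E n) 1, ((⟪ei + ej, v⟫ / ‖v‖) ^ 4 + (⟪ei - ej, v⟫ / ‖v‖) ^ 4) =
        ∫ v in Metric.ball (0 : E n) 1,
          (2 * (cosc i v ^ 4 + cosc j v ^ 4) + 12 * (cosc i v ^ 2 * cosc j v ^ 2)) := by
      refine integral_congr_ae (Filter.Eventually.of_forall fun v => ?_)
      simp only [hei, hej, inner_add_left, inner_sub_left, EuclideanSpace.inner_single_left, cosc]
      simp only [map_one, one_mul]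
      ring
    have p3 : IntegrableOn (fun v => 2 * (cosc i v ^ 4 + cosc j v ^ 4))
        (Metric.ball (0 : E n) 1) := (p1.add p2).const_mul 2
    rw [integral_add (q _) (q _), h0 _ hn1.1, h0 _ hn1.2,
      integral_add p3 ((hint i j).const_mul 12), integral_const_mul,
      integral_const_mul, integral_add p1 p2, hdiag, hdiag] at e
    linarith
  have hsum : ∑ i, ∑ j, ∫ v in Metric.ball (0 : E n) 1, cosc i v ^ 2 * cosc j v ^ 2 = omega n := by
    simp only [← integral_finsetSum _ fun j _ => hint _ j]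
    rw [← integral_finsetSum _ fun i _ => integrable_finsetSum _ fun j _ => hint i j,
      ← integral_one_ball]
    refine integral_congr_ae ?_
    filter_upwards [ae_restrict_of_ae (Measure.ae_ne volume (0 : E n))] with v hv
    simp only [← Finset.mul_sum, sum_cosc_sq hv, mul_one]
  have hrow : ∀ i, ∑ j, ∫ v in Metric.ball (0 : E n) 1, cosc i v ^ 2 * cosc j v ^ 2 =
      A + ((n : ℝ) - 1) * (A / 3) := fun i => by
    rw [← Finset.add_sum_erase _ _ (Finset.mem_univ i)]
    rw [Finset.sum_congr rfl fun j hj => hoff i j (Finset.ne_of_mem_erase hj).symm]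
    simp only [← pow_add, hdiag, Finset.sum_const, Finset.card_erase_of_mem (Finset.mem_univ i),
      Finset.card_univ, Fintype.card_fin, nsmul_eq_mul]
    rw [Nat.cast_sub (by omega), Nat.cast_one]
  simp only [hrow, Finset.sum_const, Finset.card_univ, Fintype.card_fin, nsmul_eq_mul] at hsum
  rw [eq_div_iff (by positivity)]
  linarith

/-- An even function has half of its integral over each half ball. -/
lemma integral_half (hn : 0 < n) {h : E n → ℝ} (hev : ∀ v, h (-v) = h v)
    (hi : IntegrableOn h (Metric.ball (0 : E n) 1)) :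
    ∫ v in Metric.ball (0 : E n) 1 ∩ {v | 0 < v ⟨0, hn⟩}, h v =
      (∫ v in Metric.ball (0 : E n) 1, h v) / 2 := by
  set i : Fin n := ⟨0, hn⟩
  set B := Metric.ball (0 : E n) 1
  have hpm : MeasurableSet {v : E n | 0 < v i} :=
    (isOpen_lt continuous_const (PiLp.continuous_apply 2 _ i)).measurableSet
  have hneg : ∫ v in B ∩ {v | v i < 0}, h v = ∫ v in B ∩ {v | 0 < v i}, h v := by
    have := (LinearIsometryEquiv.neg ℝ (E := E n)).measurePreserving.setIntegral_preimage_emb
      (LinearIsometryEquiv.neg ℝ (E := E n)).toMeasurableEquiv.measurableEmbedding h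
      (B ∩ {v | 0 < v i})
    simp only [LinearIsometryEquiv.coe_neg, hev] at this
    rw [← this]
    congr 1
    congr 1
    ext v
    simp [B]
  have hnull : volume {v : E n | v i = 0} = 0 := by
    have : {v : E n | v i = 0} = ((ℝ ∙ EuclideanSpace.single i (1 : ℝ))ᗮ : Submodule ℝ (E n)) := by
      ext v
      simp [Submodule.mem_orthogonal_singleton_iff_inner_right, EuclideanSpace.inner_single_left]
    rw [this]
    refine Measure.addHaar_submodule _ _ ?_
    intro htop
    have h1 : EuclideanSpace.single i (1 : ℝ) ∈ (ℝ ∙ EuclideanSpace.single i (1 : ℝ))ᗮ :=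
      htop ▸ Submodule.mem_top
    simp [Submodule.mem_orthogonal_singleton_iff_inner_right] at h1
  have hsplit := setIntegral_union (s := B ∩ {v | v i < 0}) (t := B ∩ {v | 0 < v i}) (f := h)
    (μ := volume) (disjoint_left.2 fun v h1 h2 => lt_asymm (show v i < 0 from h1.2) h2.2) (measurableSet_ball.inter hpm)
    (hi.mono_set inter_subset_left) (hi.mono_set inter_subset_left)
  have hae : (B ∩ {v | v i < 0} ∪ B ∩ {v | 0 < v i} : Set (E n)) =ᵐ[volume] B := by
    filter_upwards [measure_eq_zero_iff_ae_notMem.1 hnull] with v hv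
    replace hv : v i ≠ 0 := hv
    refine propext ⟨fun h => h.elim And.left And.left, fun hB => ?_⟩
    rcases lt_or_gt_of_ne hv with h | h
    · exact Or.inl ⟨hB, h⟩
    · exact Or.inr ⟨hB, h⟩
  rw [setIntegral_congr_set hae, hneg] at hsplit
  linarith

end

end Vale.Agent.P219.CH.Cert
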