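import Vale.Agent.P219.CH.Interfaces

/-!
P219: a singular profile `K` (field `K(dist) ∇dist`) with `K' ≤ K/r`, a nonnegative chord
function and the exact pair inequality yields a certificate: the fields `K(ρ)/ρ` with
`ρ² = r² + σ²` lose at most `(n - 1) σ`.
-/

namespace Vale.Agent.P219.CH

open MeasureTheory Set Filter Topology

noncomputable section

variable {n : ℕ}

/-- The chord function `a + (1-d²) K' + (K/r)(n-2+d²) - (n-1) K d` of a profile. -/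
def profQ (n : ℕ) (a : ℝ) (K dK : ℝ → ℝ) (r d : ℝ) : ℝ :=
  a + (1 - d ^ 2) * dK r + K r / r * ((n : ℝ) - 2 + d ^ 2) - ((n : ℝ) - 1) * K r * d

namespace Cert

/-- The argument `s + σ²`, continued positively to `s < 0`. -/
def shift (σ s : ℝ) : ℝ := if s ≤ 0 then σ ^ 4 / (σ ^ 2 - s) else σ ^ 2 + s

lemma shift_pos {σ : ℝ} (hσ : 0 < σ) (s : ℝ) : 0 < shift σ s := by
  have h2 : 0 < σ ^ 2 := pow_pos hσ 2
  unfold shift
  split_ifs with h
  · exact div_pos (pow_pos hσ 4) (by linarith)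
  · linarith [not_le.1 h]

lemma shift_sq {σ : ℝ} (hσ : 0 < σ) (r : ℝ) : shift σ (r ^ 2) = σ ^ 2 + r ^ 2 := by
  unfold shift
  split_ifs with h
  · rw [le_antisymm h (sq_nonneg r)]; field_simp; ring
  · rfl

lemma hasDerivAt_shift {σ : ℝ} (hσ : 0 < σ) (s : ℝ) :
    HasDerivAt (shift σ) ((σ ^ 2 / (σ ^ 2 + max (-s) 0)) ^ 2) s := by
  have h2 : 0 < σ ^ 2 := pow_pos hσ 2
  have hl : ∀ x, x ≤ 0 → HasDerivAt (fun y => σ ^ 4 / (σ ^ 2 - y))
      ((σ ^ 2 / (σ ^ 2 + max (-x) 0)) ^ 2) x := fun x hx => by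
    have hne : σ ^ 2 - x ≠ 0 := by linarith
    refine ((hasDerivAt_const x (σ ^ 4)).div ((hasDerivAt_id x).const_sub (σ ^ 2)) hne).congr_deriv ?_
    rw [max_eq_left (by linarith), ← sub_eq_add_neg, div_pow]
    simp only [id_eq]
    ring
  have hr : ∀ x, 0 ≤ x → HasDerivAt (fun y => σ ^ 2 + y)
      ((σ ^ 2 / (σ ^ 2 + max (-x) 0)) ^ 2) x := fun x hx => by
    rw [max_eq_right (by linarith), add_zero, div_self h2.ne', one_pow]
    exact (hasDerivAt_id x).const_add _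
  rcases lt_trichotomy s 0 with hs | hs | hs
  · refine (hl s hs.le).congr_of_eventuallyEq ?_
    filter_upwards [Iio_mem_nhds hs] with y hy
    simp [shift, le_of_lt (show y < 0 from hy)]
  · subst hs
    have h1 := ((hl 0 le_rfl).hasDerivWithinAt (s := Iic 0)).congr
      (f₁ := shift σ) (fun y hy => by simp [shift, show y ≤ 0 from hy]) (by simp [shift])
    have e : ∀ y : ℝ, 0 ≤ y → shift σ y = σ ^ 2 + y := fun y hy => by
      rcases hy.eq_or_lt with rfl | h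
      · simp [shift]; field_simp
      · simp [shift, not_le.2 h]
    have h3 := ((hr 0 le_rfl).hasDerivWithinAt (s := Ici 0)).congr (fun y hy => e y hy) (e 0 le_rfl)
    simpa [hasDerivWithinAt_univ] using h1.union h3
  · refine (hr s hs.le).congr_of_eventuallyEq ?_
    filter_upwards [Ioi_mem_nhds hs] with y hy
    simp [shift, not_le.2 (show 0 < y from hy)]

end Cert

/-- A singular profile with its chord inequality, without balance. -/
structure PreProfile (n : ℕ) where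
  a : ℝ
  a_nonneg : 0 ≤ a
  g : ℝ → ℝ
  g_cont : Continuous g
  g_nonpos : ∀ c ∈ Icc (0 : ℝ) 1, g c ≤ 0
  K : ℝ → ℝ
  dK : ℝ → ℝ
  hasDeriv : ∀ r, 0 < r → HasDerivAt K (dK r) r
  dK_cont : ContinuousOn dK (Ioi 0)
  K_nonneg : ∀ r, 0 < r → 0 ≤ K r
  dK_le : ∀ r, 0 < r → dK r ≤ K r / r
  Q_nonneg : ∀ r d, 0 < r → 0 ≤ d → d ≤ 1 → 0 ≤ profQ n a K dK r d
  pair : ∀ r c d, 0 < r → 0 < c → c ≤ 1 → 0 < d → d ≤ 1 →
    2 * c * d * (r + g c + g d) ≤
      r ^ (n - 1) * (profQ n a K dK r c + profQ n a K dK r d)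

namespace PreProfile

variable (P : PreProfile n)

/-- The regularised field. -/
def field (σ s : ℝ) : ℝ := P.K (Real.sqrt (Cert.shift σ s)) / Real.sqrt (Cert.shift σ s)

/-- Its derivative. -/
def dfield (σ s : ℝ) : ℝ :=
  (P.dK (Real.sqrt (Cert.shift σ s)) - P.K (Real.sqrt (Cert.shift σ s)) /
      Real.sqrt (Cert.shift σ s)) /
    (2 * Cert.shift σ s) * (σ ^ 2 / (σ ^ 2 + max (-s) 0)) ^ 2

lemma hasDerivAt_field {σ : ℝ} (hσ : 0 < σ) (s : ℝ) :
    HasDerivAt (P.field σ) (P.dfield σ s) s := by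
  have ht := Cert.shift_pos hσ s
  have hs : 0 < Real.sqrt (Cert.shift σ s) := Real.sqrt_pos.2 ht
  have h1 := (Real.hasDerivAt_sqrt ht.ne').comp s (Cert.hasDerivAt_shift hσ s)
  refine (((P.hasDeriv _ hs).comp s h1).div h1 hs.ne').congr_deriv ?_
  simp only [dfield, Function.comp_apply]
  have e : Real.sqrt (Cert.shift σ s) ^ 2 = Cert.shift σ s := Real.sq_sqrt ht.le
  field_simp
  rw [e]
  ring

lemma contDiff_field {σ : ℝ} (hσ : 0 < σ) : ContDiff ℝ 1 (P.field σ) := by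
  refine contDiff_one_iff_deriv.2 ⟨fun s => (P.hasDerivAt_field hσ s).differentiableAt, ?_⟩
  rw [show deriv (P.field σ) = P.dfield σ from funext fun s => (P.hasDerivAt_field hσ s).deriv]
  have hc : Continuous (Cert.shift σ) :=
    continuous_iff_continuousAt.2 fun s => (Cert.hasDerivAt_shift hσ s).continuousAt
  have hq : Continuous fun s => Real.sqrt (Cert.shift σ s) := hc.sqrt
  have hp : ∀ s, Real.sqrt (Cert.shift σ s) ∈ Ioi (0 : ℝ) :=
    fun s => Real.sqrt_pos.2 (Cert.shift_pos hσ s)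
  have hK : ContinuousOn P.K (Ioi 0) :=
    fun r hr => (P.hasDeriv r hr).continuousAt.continuousWithinAt
  refine ((((P.dK_cont.comp_continuous hq hp)).sub ((hK.comp_continuous hq hp).div hq
    fun s => (hp s).ne')).div (continuous_const.mul hc) fun s => ?_).mul
      ((continuous_const.div (continuous_const.add (continuous_neg.max continuous_const))
        fun s => ?_).pow 2)
  · exact mul_ne_zero two_ne_zero (Cert.shift_pos hσ s).ne'
  · have := le_max_right (-s) 0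
    have : (0 : ℝ) < σ ^ 2 := pow_pos hσ 2
    show σ ^ 2 + max (-s) 0 ≠ 0
    linarith

lemma field_nonneg {σ : ℝ} (hσ : 0 < σ) (s : ℝ) : 0 ≤ P.field σ s :=
  div_nonneg (P.K_nonneg _ (Real.sqrt_pos.2 (Cert.shift_pos hσ s))) (Real.sqrt_nonneg _)

lemma kernel_ge (hn : 1 ≤ n) {σ : ℝ} (hσ : 0 < σ) {r d : ℝ} (hr : 0 ≤ r) (hd : |d| ≤ 1) :
    profQ n P.a P.K P.dK (Real.sqrt (σ ^ 2 + r ^ 2)) |d| ≤ kernelQ n P.a (P.field σ) r d := by
  set ρ := Real.sqrt (σ ^ 2 + r ^ 2) with hρ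
  have hpos : 0 < σ ^ 2 + r ^ 2 := add_pos_of_pos_of_nonneg (pow_pos hσ 2) (sq_nonneg r)
  have hρ0 : 0 < ρ := Real.sqrt_pos.2 hpos
  have hρ2 : ρ ^ 2 = σ ^ 2 + r ^ 2 := Real.sq_sqrt hpos.le
  have hrρ : r ≤ ρ := by rw [hρ]; exact Real.le_sqrt_of_sq_le (by nlinarith)
  have e1 : P.field σ (r ^ 2) = P.K ρ / ρ := by rw [field, Cert.shift_sq hσ]
  have e2 : P.field σ (r ^ 2) + 2 * r ^ 2 * deriv (P.field σ) (r ^ 2) =
      P.dK ρ + σ ^ 2 / ρ ^ 2 * (P.K ρ / ρ - P.dK ρ) := by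
    rw [e1, (P.hasDerivAt_field hσ _).deriv, dfield, Cert.shift_sq hσ,
      max_eq_right (by nlinarith), add_zero, div_self (pow_pos hσ 2).ne', ← hρ, ← hρ2]
    field_simp
    linear_combination (P.K ρ - ρ * P.dK ρ) * hρ2
  rw [kernelQ, e2, e1, profQ, sq_abs]
  have hd2 : 0 ≤ 1 - d ^ 2 := by rw [← sq_abs]; nlinarith [abs_nonneg d]
  have h1 : 0 ≤ σ ^ 2 / ρ ^ 2 * (P.K ρ / ρ - P.dK ρ) :=
    mul_nonneg (by positivity) (by linarith [P.dK_le ρ hρ0])
  have h2 : r * (P.K ρ / ρ) * d ≤ P.K ρ * |d| := by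
    calc r * (P.K ρ / ρ) * d ≤ r * (P.K ρ / ρ) * |d| :=
          mul_le_mul_of_nonneg_left (le_abs_self d)
            (mul_nonneg hr (div_nonneg (P.K_nonneg ρ hρ0) hρ0.le))
      _ ≤ ρ * (P.K ρ / ρ) * |d| := mul_le_mul_of_nonneg_right
            (mul_le_mul_of_nonneg_right hrρ (div_nonneg (P.K_nonneg ρ hρ0) hρ0.le)) (abs_nonneg d)
      _ = P.K ρ * |d| := by field_simp
  have hn' : (0 : ℝ) ≤ (n : ℝ) - 1 := by
    have : (1 : ℝ) ≤ n := by exact_mod_cast hn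
    linarith
  have h3 := mul_le_mul_of_nonneg_left h2 hn'
  nlinarith [mul_nonneg hd2 h1]

lemma kernel_nonneg (hn : 1 ≤ n) {σ : ℝ} (hσ : 0 < σ) {r d : ℝ} (hr : 0 ≤ r) (hd : |d| ≤ 1) :
    0 ≤ kernelQ n P.a (P.field σ) r d :=
  (P.Q_nonneg _ _ (Real.sqrt_pos.2 (add_pos_of_pos_of_nonneg (pow_pos hσ 2) (sq_nonneg r)))
    (abs_nonneg d) hd).trans (P.kernel_ge hn hσ hr hd)

lemma pair_reg (hn : 1 ≤ n) {σ : ℝ} (hσ : 0 < σ) {r c d : ℝ} (hr : 0 < r) (hc : 0 < c)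
    (hc1 : c ≤ 1) (hd : 0 < d) (hd1 : d ≤ 1) :
    r - ((n - 1 : ℕ) : ℝ) * σ + P.g c + P.g d ≤
      r ^ (n - 1) * (kernelQ n P.a (P.field σ) r c + kernelQ n P.a (P.field σ) r d) /
        (2 * c * d) := by
  set m := n - 1
  set ρ := Real.sqrt (σ ^ 2 + r ^ 2) with hρ
  set k := kernelQ n P.a (P.field σ) r c + kernelQ n P.a (P.field σ) r d
  have hk : 0 ≤ k := add_nonneg
    (P.kernel_nonneg hn hσ hr.le (by rwa [abs_of_pos hc]))
    (P.kernel_nonneg hn hσ hr.le (by rwa [abs_of_pos hd]))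
  have hρ0 : 0 < ρ := Real.sqrt_pos.2 (add_pos_of_pos_of_nonneg (pow_pos hσ 2) (sq_nonneg r))
  have hrρ : r ≤ ρ := by rw [hρ]; exact Real.le_sqrt_of_sq_le (by nlinarith)
  have hρσ : ρ ≤ r + σ := by
    rw [hρ]; exact (Real.sqrt_le_iff).2 ⟨by linarith, by nlinarith⟩
  have hmσ : (0 : ℝ) ≤ (m : ℝ) * σ := by positivity
  rw [le_div_iff₀ (by positivity)]
  set Y := ρ + P.g c + P.g d with hY
  rcases le_or_gt Y 0 with h | h
  · exact (mul_nonpos_of_nonpos_of_nonneg (by linarith) (by positivity)).trans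
      (mul_nonneg (by positivity) hk)
  have h1 : ρ ^ m * k ≥ 2 * c * d * Y := by
    refine (P.pair ρ c d hρ0 hc hc1 hd hd1).trans
      (mul_le_mul_of_nonneg_left (add_le_add ?_ ?_) (by positivity))
    · have := P.kernel_ge hn hσ hr.le (show |c| ≤ 1 by rwa [abs_of_pos hc])
      rwa [abs_of_pos hc] at this
    · have := P.kernel_ge hn hσ hr.le (show |d| ≤ 1 by rwa [abs_of_pos hd])
      rwa [abs_of_pos hd] at this
  have hx0 : 0 ≤ r / ρ := div_nonneg hr.le hρ0.le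
  have hbern : 1 + (m : ℝ) * (r / ρ - 1) ≤ (r / ρ) ^ m := by
    have := one_add_mul_le_pow (a := r / ρ - 1) (by linarith) m
    simpa using this
  have hYρ : Y ≤ ρ := by
    linarith [P.g_nonpos c ⟨hc.le, hc1⟩, P.g_nonpos d ⟨hd.le, hd1⟩]
  have h4 : r - (m : ℝ) * σ + P.g c + P.g d ≤ (r / ρ) ^ m * Y := by
    have a1 : (1 + (m : ℝ) * (r / ρ - 1)) * Y ≤ (r / ρ) ^ m * Y :=
      mul_le_mul_of_nonneg_right hbern h.le
    have a2 : (1 - r / ρ) * Y ≤ (1 - r / ρ) * ρ :=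
      mul_le_mul_of_nonneg_left hYρ (by linarith [(div_le_one hρ0).2 hrρ])
    have a3 : (1 - r / ρ) * ρ = ρ - r := by field_simp
    have a4 : (m : ℝ) * ((1 - r / ρ) * Y) ≤ (m : ℝ) * σ :=
      mul_le_mul_of_nonneg_left (by linarith) (Nat.cast_nonneg m)
    nlinarith
  calc (r - (m : ℝ) * σ + P.g c + P.g d) * (2 * c * d)
      ≤ (r / ρ) ^ m * Y * (2 * c * d) := mul_le_mul_of_nonneg_right h4 (by positivity)
    _ = (r / ρ) ^ m * (2 * c * d * Y) := by ring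
    _ ≤ (r / ρ) ^ m * (ρ ^ m * k) := mul_le_mul_of_nonneg_left h1 (by positivity)
    _ = r ^ m * k := by rw [← mul_assoc, ← mul_pow, div_mul_cancel₀ _ hρ0.ne']

/-- The fields of a profile. -/
theorem approx (hn : 2 ≤ n) (σ : ℝ) (hσ : 0 < σ) :
    ∃ φ : ℝ → ℝ, ContDiff ℝ 1 φ ∧ (∀ s, 0 ≤ s → 0 ≤ φ s) ∧
      (∀ r d, 0 ≤ r → |d| ≤ 1 → 0 ≤ kernelQ n P.a φ r d) ∧
      ∀ r c d, 0 < r → 0 < c → c ≤ 1 → 0 < d → d ≤ 1 →
        r - σ + P.g c + P.g d ≤
          r ^ (n - 1) * (kernelQ n P.a φ r c + kernelQ n P.a φ r d) / (2 * c * d) := by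
  have hm : (0 : ℝ) < ((n - 1 : ℕ) : ℝ) := by exact_mod_cast (by omega : 0 < n - 1)
  have hτ : 0 < σ / ((n - 1 : ℕ) : ℝ) := div_pos hσ hm
  refine ⟨P.field (σ / ((n - 1 : ℕ) : ℝ)), P.contDiff_field hτ,
    fun s _ => P.field_nonneg hτ s,
    fun r d hr hd => P.kernel_nonneg (by omega) hτ hr hd, fun r c d hr hc hc1 hd hd1 => ?_⟩
  have := P.pair_reg (by omega) hτ hr hc hc1 hd hd1
  rwa [mul_div_cancel₀ _ hm.ne'] at this

end PreProfile

/-- A singular profile with its chord inequality and balance. -/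
structure Profile (n : ℕ) extends PreProfile n where
  balance : ∀ (hn : 0 < n), a * n * omega n = omega n + 2 * n *
    ∫ v in Metric.ball (0 : E n) 1 ∩ {v | 0 < v ⟨0, hn⟩},
      g (v ⟨0, hn⟩ / ‖v‖) * (v ⟨0, hn⟩ / ‖v‖)

/-- The certificate of a profile. -/
def Profile.toCert (P : Profile n) (hn : 2 ≤ n) : Cert n where
  a := P.a
  a_nonneg := P.a_nonneg
  g := P.g
  g_cont := P.g_cont
  g_nonpos := P.g_nonpos
  balance := P.balance
  approx := P.toPreProfile.approx hn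

end

end Vale.Agent.P219.CH
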