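import Vale.Agent.P219.CH.Cert.Profile
import Vale.Agent.P219.CH.Cert.Law
import Vale.Agent.P219.CH.Cert.Seven.Fun

/-!
P219: the chord certificate in dimension seven. On `(0, 2]` the profile is `h0 (r/2)`, beyond `2` it
is continued by `p/r + s/r²`; the pair inequality reduces to `f c r ≥ 0` on the diagonal `c = d`,
and `f` decreases up to `r = 2c` and increases afterwards.
-/

namespace Vale.Agent.P219.CH.Cert.Seven

open MeasureTheory Filter Topology Set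

noncomputable section

/-- `K 2`. -/
def k0 : ℝ := h0 1

/-- Coefficient of `1/r` beyond `2`. -/
def cp : ℝ := 4 * (k0 + h1 1 / 2)

/-- Coefficient of `1/r²` beyond `2`. -/
def cs : ℝ := 4 * k0 - 2 * cp

/-- The profile. -/
def K (r : ℝ) : ℝ := if r ≤ 2 then h0 (r / 2) else cp / r + cs / r ^ 2

/-- Its derivative. -/
def dK (r : ℝ) : ℝ := if r ≤ 2 then h1 (r / 2) / 2 else -cp / r ^ 2 - 2 * cs / r ^ 3

/-- The weight of an end point. -/
def g (c : ℝ) : ℝ := gf (max 0 (min c 1))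

lemma g_eq {c : ℝ} (hc : c ∈ Icc (0 : ℝ) 1) : g c = gf c := by
  rw [g, min_eq_left hc.2, max_eq_right hc.1]

lemma continuous_g : Continuous g := by
  refine continuousOn_gf.comp_continuous (by fun_prop) fun c => ?_
  exact ⟨le_max_left _ _, max_le zero_le_one (min_le_right _ _)⟩

lemma params : cp = 4 * (a - 1 / 192 - 5 / 2 * k0) ∧ cs = 24 * k0 + 1 / 24 - 8 * a ∧
    1180 / 100000 ≤ k0 ∧ k0 ≤ 1194 / 100000 := by
  obtain ⟨h1', h2'⟩ := h0_one_bounds
  refine ⟨?_, ?_, h1', h2'⟩ <;> simp only [cs, cp, k0, h1_one] <;> ring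

lemma cp_cs_bounds : 13 / 1000 ≤ cp ∧ cp ≤ 16 / 1000 ∧ 16 / 1000 ≤ cs ∧ cs ≤ 22 / 1000 := by
  obtain ⟨e1, e2, hl, hh⟩ := params
  obtain ⟨al, ah⟩ := a_bounds
  rw [e1, e2]
  refine ⟨?_, ?_, ?_, ?_⟩ <;> linarith

lemma half_mem {r : ℝ} (hr : 0 < r) (h2 : r ≤ 2) : r / 2 ∈ Icc (0 : ℝ) 1 :=
  ⟨by linarith, by linarith⟩

lemma hasDerivAt_K {r : ℝ} (hr : 0 < r) : HasDerivAt K (dK r) r := by
  have ho : ∀ y : ℝ, y ≠ 0 → HasDerivAt (fun x => cp / x + cs / x ^ 2)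
      (-cp / y ^ 2 - 2 * cs / y ^ 3) y := fun y hy => by
    refine (((hasDerivAt_const y cp).div (hasDerivAt_id y) hy).add
      ((hasDerivAt_const y cs).div (hasDerivAt_pow 2 y) (pow_ne_zero 2 hy))).congr_deriv ?_
    simp only [id_eq]
    push_cast
    field_simp
    ring
  rcases lt_trichotomy r 2 with h | h | h
  · rw [dK, if_pos h.le]
    have := (hasDerivAt_h0 (x := r / 2) ⟨by linarith, by linarith⟩).comp r
      ((hasDerivAt_id r).div_const 2)
    refine (this.congr_deriv (by ring)).congr_of_eventuallyEq ?_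
    filter_upwards [Iio_mem_nhds h] with y hy
    simp [K, le_of_lt (show y < 2 from hy)]
  · subst h
    rw [dK, if_pos le_rfl]
    have h1' : HasDerivWithinAt K (h1 (2 / 2) / 2) (Iic 2) 2 := by
      have hx : HasDerivWithinAt h0 (h1 (2 / 2)) (Iic 1) (2 / 2) := by
        norm_num; exact hasDerivWithinAt_h0_one
      have := HasDerivWithinAt.comp (h := fun y : ℝ => y / 2) 2 hx
        (((hasDerivAt_id (2 : ℝ)).div_const 2).hasDerivWithinAt (s := Iic 2))
        (fun y hy => by show y / 2 ≤ 1; linarith [show y ≤ 2 from hy])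
      exact (this.congr_deriv (by ring)).congr (fun y hy => by simp [K, show y ≤ 2 from hy])
        (by simp [K])
    have e : ∀ y : ℝ, 2 ≤ y → K y = cp / y + cs / y ^ 2 := fun y hy => by
      rcases hy.eq_or_lt with rfl | h
      · simp [K, cs, cp, k0]; ring
      · simp [K, not_le.2 h]
    have h2' : HasDerivWithinAt K (h1 (2 / 2) / 2) (Ici 2) 2 := by
      refine (((ho 2 two_ne_zero).hasDerivWithinAt).congr (fun y hy => e y hy)
        (e 2 le_rfl)).congr_deriv ?_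
      simp [cs, cp, k0]; ring
    simpa [hasDerivWithinAt_univ] using h1'.union h2'
  · rw [dK, if_neg (not_le.2 h)]
    refine (ho r hr.ne').congr_of_eventuallyEq ?_
    filter_upwards [Ioi_mem_nhds h] with y hy
    simp [K, not_le.2 (show 2 < y from hy)]

lemma continuousOn_dK : ContinuousOn dK (Ioi 0) := by
  have h1' : ContinuousOn dK (Ioc 0 2) := by
    refine ContinuousOn.congr (f := fun r => h1 (r / 2) / 2) ?_ fun r hr => by simp [dK, hr.2]
    exact (continuousOn_h1.comp (by fun_prop) fun r hr =>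
      ⟨by linarith [hr.1], by linarith [hr.2]⟩).div_const 2
  have h2' : ContinuousOn dK (Ici 2) := by
    refine ContinuousOn.congr (f := fun r => -cp / r ^ 2 - 2 * cs / r ^ 3) ?_ fun r hr => ?_
    · refine ((continuousOn_const.div (by fun_prop) ?_).sub
        (continuousOn_const.div (by fun_prop) ?_))
        <;> intro r hr <;> exact pow_ne_zero _ (by linarith [show 2 ≤ r from hr])
    · rcases (show (2 : ℝ) ≤ r from hr).eq_or_lt with rfl | h
      · simp [dK, cs, cp, k0]; ring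
      · simp [dK, not_le.2 h]
  intro r hr
  rcases lt_trichotomy r 2 with h | h | h
  · exact ((h1'.mono Ioo_subset_Ioc_self).continuousAt (Ioo_mem_nhds hr h)).continuousWithinAt
  · subst h
    refine ((h1' 2 ⟨two_pos, le_rfl⟩).union (h2' 2 Set.self_mem_Ici)).mono fun y hy => ?_
    rcases le_or_gt y 2 with h | h
    · exact Or.inl ⟨hy, h⟩
    · exact Or.inr h.le
  · exact ((h2'.mono Ioi_subset_Ici_self).continuousAt (Ioi_mem_nhds h)).continuousWithinAt

lemma K_nonneg {r : ℝ} (hr : 0 < r) : 0 ≤ K r := by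
  rw [K]; split_ifs with h
  · exact h0_nonneg (half_mem hr h)
  · obtain ⟨p1, -, s1, -⟩ := cp_cs_bounds
    have : 0 ≤ cp := by linarith
    have : 0 ≤ cs := by linarith
    positivity

lemma dK_nonpos {r : ℝ} (hr : 0 < r) : dK r ≤ 0 := by
  rw [dK]; split_ifs with h
  · linarith [h1_nonpos (half_mem hr h)]
  · obtain ⟨p1, -, s1, -⟩ := cp_cs_bounds
    have : 0 ≤ cp / r ^ 2 := div_nonneg (by linarith) (sq_nonneg r)
    have : 0 ≤ 2 * cs / r ^ 3 := div_nonneg (by linarith) (by positivity)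
    rw [neg_div]; linarith

lemma dK_le {r : ℝ} (hr : 0 < r) : dK r ≤ K r / r :=
  (dK_nonpos hr).trans (div_nonneg (K_nonneg hr) hr.le)

lemma Q1_poly {x : ℝ} (hx : x ∈ Icc (1 / 2 : ℝ) 1) :
    (6 * x - 3) * ((1 + x) ^ 3 / 144 + x ^ 2 * (10834 / 1000000 + 19686 / 1000000 * x +
      8868 / 1000000 * x ^ 2 + 40 / 100000 * x ^ 3)) ≤
      38446 / 1000000 * x ^ 3 * (1 + x) ^ 3 := by
  obtain ⟨t, ht0, ht1, rfl⟩ : ∃ t, 0 ≤ t ∧ t ≤ 1 / 2 ∧ x = 1 / 2 + t :=
    ⟨x - 1 / 2, by linarith [hx.1], by linarith [hx.2], by ring⟩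
  nlinarith [sq_nonneg (t - 1 / 3), mul_nonneg ht0 (sq_nonneg (t - 1 / 3)),
    mul_nonneg (mul_nonneg ht0 ht0) (sq_nonneg (t - 1 / 3)), pow_nonneg ht0 3, pow_nonneg ht0 4,
    pow_nonneg ht0 5, pow_nonneg ht0 6]

lemma Q_inner {x d : ℝ} (hx0 : 0 < x) (hx : x ≤ 1) (hd0 : 0 ≤ d) (hd1 : d ≤ 1) :
    0 ≤ a + (1 - d ^ 2) * (h1 x / 2) + h0 x / (2 * x) * (5 + d ^ 2) - 6 * h0 x * d := by
  have hm : x ∈ Icc (0 : ℝ) 1 := ⟨hx0.le, hx⟩
  obtain ⟨hl, hh⟩ := Rf_bounds hm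
  obtain ⟨dl, dh⟩ := Rd_bounds hm
  have ha := a_bounds.1
  have hd2 : 0 ≤ 1 - d ^ 2 := by nlinarith
  rcases le_or_gt x (1 / 2) with h | h
  · have e : a + (1 - d ^ 2) * (h1 x / 2) + h0 x / (2 * x) * (5 + d ^ 2) - 6 * h0 x * d =
        (1 + d ^ 2 - 4 * x * d) / (96 * x ^ 3) + (a + (1 - d ^ 2) * (Rd x / 2)) +
          Rf x * ((5 + d ^ 2) / (2 * x) - 6 * d) := by
      simp only [h1, h0]
      field_simp
      ring
    rw [e]
    have t1 : 0 ≤ (1 + d ^ 2 - 4 * x * d) / (96 * x ^ 3) := by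
      refine div_nonneg ?_ (by positivity)
      nlinarith [sq_nonneg (1 - d), mul_nonneg hd0 (sub_nonneg.2 h)]
    have t2 : 0 ≤ a + (1 - d ^ 2) * (Rd x / 2) := by nlinarith
    have t3 : 0 ≤ Rf x * ((5 + d ^ 2) / (2 * x) - 6 * d) := by
      refine mul_nonneg (by linarith) (sub_nonneg.2 ?_)
      rw [le_div_iff₀ (by positivity)]
      nlinarith [mul_nonneg (sub_nonneg.2 hd1) (show (0 : ℝ) ≤ 5 - d by linarith),
        mul_nonneg hd0 (sub_nonneg.2 h)]
    linarith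
  · have hs : 0 ≤ h1 x - h0 x / x + 6 * h0 x := by
      have e : h1 x - h0 x / x + 6 * h0 x =
          (2 * x - 1) / (48 * x ^ 3) + (Rd x + (6 - 1 / x) * Rf x) := by
        simp only [h1, h0]
        field_simp
        ring
      rw [e]
      have : 4 ≤ 6 - 1 / x := by
        have : 1 / x ≤ 2 := by rw [div_le_iff₀ hx0]; linarith
        linarith
      exact add_nonneg (div_nonneg (by linarith) (by positivity))
        (by nlinarith [Rd_ge_Rf hm])
    have hneg : h1 x / 2 - h0 x / (2 * x) ≤ 0 := by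
      have := div_nonneg (h0_nonneg hm) (by positivity : (0 : ℝ) ≤ 2 * x)
      linarith [h1_nonpos hm]
    have hone : 0 ≤ a - (6 * x - 3) * (h0 x / x) := by
      obtain ⟨-, uh⟩ := u_series hm
      have hp := Q1_poly ⟨h.le, hx⟩
      have hden : 0 < x ^ 3 * (1 + x) ^ 3 := by positivity
      have e : a - (6 * x - 3) * (h0 x / x) = (a * x ^ 3 * (1 + x) ^ 3 - (6 * x - 3) *
          ((1 + x) ^ 3 / 144 + x ^ 2 * Five.tser u x)) / (x ^ 3 * (1 + x) ^ 3) := by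
        simp only [h0, Rf]
        field_simp
      rw [e]
      refine div_nonneg (sub_nonneg.2 (le_trans ?_ (hp.trans ?_))) hden.le
      · gcongr
        linarith
      · rw [mul_assoc, mul_assoc]; exact mul_le_mul_of_nonneg_right ha hden.le
    have e : a + (1 - d ^ 2) * (h1 x / 2) + h0 x / (2 * x) * (5 + d ^ 2) - 6 * h0 x * d =
        (a - (6 * x - 3) * (h0 x / x)) +
          (1 - d) * ((h1 x - h0 x / x + 6 * h0 x) - (1 - d) * (h1 x / 2 - h0 x / (2 * x))) := by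
      field_simp
      ring
    rw [e]
    have := mul_nonpos_of_nonneg_of_nonpos (sub_nonneg.2 hd1) hneg
    exact add_nonneg hone (mul_nonneg (sub_nonneg.2 hd1) (by linarith))

lemma Q_nonneg {r d : ℝ} (hr : 0 < r) (hd0 : 0 ≤ d) (hd1 : d ≤ 1) :
    0 ≤ profQ 7 a K dK r d := by
  unfold profQ
  rcases le_or_gt r 2 with h | h
  · have := Q_inner (x := r / 2) (by linarith) (by linarith) hd0 hd1
    simp only [K, dK, if_pos h]
    rw [show 2 * (r / 2) = r by ring] at this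
    push_cast
    linarith
  · obtain ⟨p1, p2, s1, s2⟩ := cp_cs_bounds
    obtain ⟨e1, e2, hl, hh⟩ := params
    obtain ⟨al, ah⟩ := a_bounds
    simp only [K, dK, if_neg (not_le.2 h)]
    obtain ⟨t, ht, rfl⟩ : ∃ t, 0 ≤ t ∧ r = 2 + t := ⟨r - 2, by linarith, by ring⟩
    have v : 0 ≤ a * (2 + t) ^ 3 - 6 * cp * (2 + t) ^ 2 + (6 * cp - 6 * cs) * (2 + t) + 6 * cs := by
      have v0 : 0 ≤ 8 * a - 12 * cp - 6 * cs := by rw [e1, e2]; linarith
      have v1 : 0 ≤ 12 * a - 18 * cp - 6 * cs := by rw [e1, e2]; linarith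
      have v2 : 0 ≤ 6 * a - 6 * cp := by linarith
      have e : a * (2 + t) ^ 3 - 6 * cp * (2 + t) ^ 2 + (6 * cp - 6 * cs) * (2 + t) + 6 * cs =
          (8 * a - 12 * cp - 6 * cs) + (12 * a - 18 * cp - 6 * cs) * t + (6 * a - 6 * cp) * t ^ 2 +
            a * t ^ 3 := by ring
      rw [e]
      have : 0 ≤ a := by linarith
      positivity
    have w : 0 ≤ 6 * cp * (2 + t) ^ 2 + (6 * cs - 4 * cp) * (2 + t) - 6 * cs := by
      nlinarith [mul_nonneg (by linarith : (0 : ℝ) ≤ cp) (sq_nonneg t)]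
    have z : 0 ≤ 2 * cp * (2 + t) + 3 * cs := by nlinarith
    push_cast
    have e : a + (1 - d ^ 2) * (-cp / (2 + t) ^ 2 - 2 * cs / (2 + t) ^ 3) +
        (cp / (2 + t) + cs / (2 + t) ^ 2) / (2 + t) * (7 - 2 + d ^ 2) -
        (7 - 1) * (cp / (2 + t) + cs / (2 + t) ^ 2) * d =
      ((a * (2 + t) ^ 3 - 6 * cp * (2 + t) ^ 2 + (6 * cp - 6 * cs) * (2 + t) + 6 * cs) +
        (1 - d) * ((6 * cp * (2 + t) ^ 2 + (6 * cs - 4 * cp) * (2 + t) - 6 * cs) +
          (1 - d) * (2 * cp * (2 + t) + 3 * cs))) / (2 + t) ^ 3 := by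
      field_simp
      ring
    rw [e]
    exact div_nonneg (add_nonneg v (mul_nonneg (sub_nonneg.2 hd1)
      (add_nonneg w (mul_nonneg (sub_nonneg.2 hd1) z)))) (by positivity)

/-- The pair gap on the diagonal. -/
def f (c r : ℝ) : ℝ :=
  a * r ^ 6 + (1 - c ^ 2) * r ^ 6 * dK r + (5 + c ^ 2) * r ^ 5 * K r - 6 * c * r ^ 6 * K r -
    c ^ 2 * r - 2 * c ^ 2 * g c

lemma f_eq {c r : ℝ} (hr : 0 < r) :
    f c r = r ^ 6 * profQ 7 a K dK r c - c ^ 2 * (r + 2 * g c) := by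
  unfold f profQ
  push_cast
  field_simp
  ring

lemma continuousOn_f (c : ℝ) : ContinuousOn (f c) (Ioi 0) := by
  have hK : ContinuousOn K (Ioi 0) := fun r hr => (hasDerivAt_K hr).continuousAt.continuousWithinAt
  have := continuousOn_dK
  unfold f
  fun_prop

lemma f_chord {c : ℝ} (hc : c ∈ Ioc (0 : ℝ) 1) : f c (2 * c) = 0 := by
  have h : 2 * c ≤ 2 := by linarith [hc.2]
  rw [f, g_eq ⟨hc.1.le, hc.2⟩, gf_eq hc.1.ne', K, dK, if_pos h, if_pos h,
    show 2 * c / 2 = c by ring]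
  ring

lemma small_poly {x : ℝ} (h0' : 0 ≤ x) (h : x ≤ 1 / 2) :
    0 ≤ 2 - 2 * x ^ 2 + 16 / 3 * x ^ 3 + (52 / 15 - 528 / 100) * x ^ 4 -
      192 * (38448 / 1000000) * x ^ 5 - 14 / 1000 * (192 * x ^ 7 + 192 * x ^ 6) := by
  have p2 : x ^ 2 ≤ 1 / 4 := by nlinarith
  have p4 : x ^ 4 ≤ 1 / 16 := by nlinarith
  have p5 : x ^ 5 ≤ 1 / 32 := by
    have := pow_le_pow_left₀ h0' h 5; norm_num at this; linarith
  have p6 : x ^ 6 ≤ 1 / 64 := by
    have := pow_le_pow_left₀ h0' h 6; norm_num at this; linarith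
  have p7 : x ^ 7 ≤ 1 / 128 := by
    have := pow_le_pow_left₀ h0' h 7; norm_num at this; linarith
  linarith [pow_nonneg h0' 3, pow_nonneg h0' 4]

lemma large_poly {x : ℝ} (h : 1 / 2 ≤ x) (h1' : x ≤ 1) :
    0 ≤ 2 - 2 * x ^ 2 + 16 / 3 * x ^ 3 + 52 / 15 * x ^ 4 - 192 * (38448 / 1000000) * x ^ 5 +
      45 / 10000 * (768 * x ^ 6 + 1152 * x ^ 5 - 480 * x ^ 4) -
      14 / 1000 * (192 * x ^ 7 + 192 * x ^ 6) := by
  obtain ⟨t, ht, rfl⟩ : ∃ t, 0 ≤ t ∧ x = 1 / 2 + t := ⟨x - 1 / 2, by linarith, by ring⟩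
  have hu : 0 ≤ 1 / 2 - t := by linarith
  nlinarith [mul_nonneg (pow_nonneg ht 2) hu, mul_nonneg (pow_nonneg ht 3) hu,
    mul_nonneg (pow_nonneg ht 4) hu, mul_nonneg (pow_nonneg ht 5) hu,
    mul_nonneg (pow_nonneg ht 6) hu, mul_nonneg ht hu, pow_nonneg ht 2]

/-- The increment factor of `f` below `2`. -/
lemma brace_nonneg {x c : ℝ} (hx : x ∈ Ioo (0 : ℝ) 1) (hc : 0 ≤ c) (hc1 : c ≤ 1) :
    0 ≤ (c + x) * (1 - 80 * x ^ 4 * h0 x + 80 * x ^ 5 * h1 x + 16 * x ^ 6 * h2 x) +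
      32 * x ^ 5 * (36 * h0 x + 6 * x * h1 x) := by
  have hm := Ioo_subset_Icc_self hx
  obtain ⟨hl, hh⟩ := Rf_bounds hm
  obtain ⟨dl, dh⟩ := Rd_bounds hm
  have hs := Rd_ge_Rf hm
  have hG := Gf_nonneg hm
  have h0x := hx.1
  have hah := a_bounds.2
  set L := 1 - x ^ 2 + 26 / 15 * x ^ 4 - 96 * a * x ^ 5 +
    Rf x * (384 * x ^ 6 - 240 * x ^ 4) + Rd x * (96 * x ^ 7 - 48 * x ^ 5) with hL
  set B := 16 / 3 * x ^ 3 + 32 * x ^ 5 * (36 * Rf x + 6 * x * Rd x) with hB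
  have e1 : 1 - 80 * x ^ 4 * h0 x + 80 * x ^ 5 * h1 x + 16 * x ^ 6 * h2 x =
      L + x ^ 6 * Gf x / 2 := by
    simp only [hL, h2, h1, h0]
    field_simp
    ring
  have e2 : 32 * x ^ 5 * (36 * h0 x + 6 * x * h1 x) = B := by
    simp only [hB, h1, h0]
    field_simp
    ring
  rw [e1, e2]
  have hA : L ≤ L + x ^ 6 * Gf x / 2 := by
    have : 0 ≤ x ^ 6 * Gf x / 2 := by positivity
    linarith
  have hB0 : 0 ≤ B := by
    have : 0 ≤ 36 * Rf x + 6 * x * Rd x := by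
      linarith [mul_nonneg h0x.le hs, mul_le_mul_of_nonneg_left hx.2.le (by linarith : 0 ≤ Rf x)]
    rw [hB]; positivity
  have key : 0 ≤ 2 * L + B := by
    have e : 2 * L + B = 2 - 2 * x ^ 2 + 16 / 3 * x ^ 3 + 52 / 15 * x ^ 4 - 192 * a * x ^ 5 +
        Rf x * (768 * x ^ 6 + 1152 * x ^ 5 - 480 * x ^ 4) +
        Rd x * (192 * x ^ 7 + 192 * x ^ 6 - 96 * x ^ 5) := by simp only [hL, hB]; ring
    rw [e]
    have ta := mul_le_mul_of_nonneg_right hah (pow_nonneg h0x.le 5)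
    have td : -(14 / 1000) * (192 * x ^ 7 + 192 * x ^ 6) ≤
        Rd x * (192 * x ^ 7 + 192 * x ^ 6 - 96 * x ^ 5) := by
      have := mul_le_mul_of_nonneg_right dl (by positivity : 0 ≤ 192 * x ^ 7 + 192 * x ^ 6)
      have := mul_nonpos_of_nonpos_of_nonneg dh (pow_nonneg h0x.le 5)
      linarith
    rcases le_or_gt x (1 / 2) with h | h
    · have p := small_poly h0x.le h
      have : 0 ≤ Rf x * (768 * x ^ 6 + 1152 * x ^ 5) :=
        mul_nonneg (by linarith) (by positivity)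
      have := mul_le_mul_of_nonneg_right hh (pow_nonneg h0x.le 4)
      linarith
    · have p := large_poly h.le hx.2.le
      have hP : 0 ≤ 768 * x ^ 6 + 1152 * x ^ 5 - 480 * x ^ 4 := by
        have : 768 * x ^ 6 + 1152 * x ^ 5 - 480 * x ^ 4 = x ^ 4 * (768 * x ^ 2 + 1152 * x - 480) := by
          ring
        rw [this]; exact mul_nonneg (by positivity) (by nlinarith)
      have := mul_le_mul_of_nonneg_right hl hP
      linarith
  rcases le_or_gt 0 (L + x ^ 6 * Gf x / 2) with h | h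
  · exact add_nonneg (mul_nonneg (by linarith) h) hB0
  · have := mul_le_mul_of_nonpos_right (show c + x ≤ 2 by linarith [hx.2]) h.le
    linarith

/-- The derivative of `f` below `2`. -/
def df (c r : ℝ) : ℝ :=
  (r / 2 - c) * ((c + r / 2) * (1 - 80 * (r / 2) ^ 4 * h0 (r / 2) +
      80 * (r / 2) ^ 5 * h1 (r / 2) + 16 * (r / 2) ^ 6 * h2 (r / 2)) +
    32 * (r / 2) ^ 5 * (36 * h0 (r / 2) + 6 * (r / 2) * h1 (r / 2)))

lemma hasDerivAt_f {c r : ℝ} (hr : r ∈ Ioo (0 : ℝ) 2) : HasDerivAt (f c) (df c r) r := by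
  have hx : r / 2 ∈ Ioo (0 : ℝ) 1 := ⟨by linarith [hr.1], by linarith [hr.2]⟩
  have d0 : HasDerivAt (fun y => h0 (y / 2)) (h1 (r / 2) / 2) r := by
    have := (hasDerivAt_h0 hx).comp r ((hasDerivAt_id r).div_const 2)
    exact this.congr_deriv (by ring)
  have d1 : HasDerivAt (fun y => h1 (y / 2) / 2) (h2 (r / 2) / 4) r := by
    have := ((hasDerivAt_h1 hx).comp r ((hasDerivAt_id r).div_const 2)).div_const 2
    exact this.congr_deriv (by ring)
  have p6 := hasDerivAt_pow 6 r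
  have p5 := hasDerivAt_pow 5 r
  have h := (((((p6.const_mul a).add ((p6.const_mul (1 - c ^ 2)).mul d1)).add
    ((p5.const_mul (5 + c ^ 2)).mul d0)).sub ((p6.const_mul (6 * c)).mul d0)).sub
    ((hasDerivAt_id r).const_mul (c ^ 2))).sub_const (2 * c ^ 2 * g c)
  refine (h.congr_of_eventuallyEq ?_).congr_deriv ?_
  · filter_upwards [Iio_mem_nhds hr.2] with y hy
    simp [f, K, dK, le_of_lt (show y < 2 from hy)]
  · simp only [df]
    have e : 16 * (r / 2) ^ 4 * (1 / (16 * (r / 2) ^ 2)) = (r / 2) ^ 2 := by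
      have := hr.1.ne'
      field_simp
    push_cast
    linear_combination 16 * (r / 2) ^ 4 * ode hx + e

lemma f_mono_outer {c : ℝ} (hc : c ∈ Ioc (0 : ℝ) 1) : MonotoneOn (f c) (Ici 2) := by
  refine monotoneOn_of_hasDerivWithinAt_nonneg
    (f' := fun r => 6 * a * r ^ 5 - 30 * cp * c * r ^ 4 +
      4 * ((4 + 2 * c ^ 2) * cp - 6 * c * cs) * r ^ 3 + 9 * (1 + c ^ 2) * cs * r ^ 2 - c ^ 2)
    (convex_Ici 2)
    ((continuousOn_f c).mono fun r hr => lt_of_lt_of_le two_pos (show 2 ≤ r from hr))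
    ?_ ?_ <;> rw [interior_Ici] <;> intro r hr
  · have hr2 : 2 < r := hr
    have h := (((((hasDerivAt_pow 6 r).const_mul a).sub
      ((hasDerivAt_pow 5 r).const_mul (6 * cp * c))).add
      ((hasDerivAt_pow 4 r).const_mul ((4 + 2 * c ^ 2) * cp - 6 * c * cs))).add
      ((hasDerivAt_pow 3 r).const_mul (3 * (1 + c ^ 2) * cs))).sub
      ((hasDerivAt_id r).const_mul (c ^ 2))
    refine (((h.sub_const (2 * c ^ 2 * g c)).congr_of_eventuallyEq ?_).congr_deriv ?_).hasDerivWithinAt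
    · filter_upwards [Ioi_mem_nhds hr2] with y hy
      have h2 : 2 < y := hy
      have : y ≠ 0 := by linarith
      simp only [f, K, dK, if_neg (not_le.2 h2), Pi.add_apply, Pi.sub_apply, id_eq]
      field_simp
      ring
    · push_cast; ring
  · obtain ⟨e1, e2, hl, hh⟩ := params
    obtain ⟨p1, p2, s1, s2⟩ := cp_cs_bounds
    obtain ⟨al, ah⟩ := a_bounds
    obtain ⟨hc0, hc1⟩ := hc
    obtain ⟨t, ht, rfl⟩ : ∃ t, 0 ≤ t ∧ r = 2 + t :=
      ⟨r - 2, by linarith [show 2 < r from hr], by ring⟩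
    have hp : cp * c ≤ cp := mul_le_of_le_one_right (by linarith) hc1
    have hs : cs * c ≤ cs := mul_le_of_le_one_right (by linarith) hc1
    have hpc : 0 ≤ cp * c ^ 2 := mul_nonneg (by linarith) (sq_nonneg c)
    have hsc : 0 ≤ cs * c ^ 2 := mul_nonneg (by linarith) (sq_nonneg c)
    have v0 : 0 ≤ 192 * a - 480 * (cp * c) + 128 * cp + 64 * (cp * c ^ 2) - 192 * (cs * c) +
        36 * cs + 36 * (cs * c ^ 2) - c ^ 2 := by
      have e : 192 * a - 480 * (cp * c) + 128 * cp + 64 * (cp * c ^ 2) - 192 * (cs * c) +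
          36 * cs + 36 * (cs * c ^ 2) - c ^ 2 =
        (1 - c) * ((192 * a + 128 * cp + 36 * cs) - (64 * cp + 36 * cs - 1) * c) +
          c * (192 * a - 288 * cp - 120 * cs - 1) := by ring
      rw [e, show 192 * a - 288 * cp - 120 * cs - 1 = 0 by rw [e1, e2]; ring, mul_zero, add_zero]
      refine mul_nonneg (by linarith) ?_
      nlinarith
    have v1 : 0 ≤ 480 * a - 960 * (cp * c) + 192 * cp + 96 * (cp * c ^ 2) - 288 * (cs * c) +
        36 * cs + 36 * (cs * c ^ 2) := by linarith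
    have v2 : 0 ≤ 480 * a - 720 * (cp * c) + 96 * cp + 48 * (cp * c ^ 2) - 144 * (cs * c) +
        9 * cs + 9 * (cs * c ^ 2) := by linarith
    have v3 : 0 ≤ 240 * a - 240 * (cp * c) + 16 * cp + 8 * (cp * c ^ 2) - 24 * (cs * c) := by
      linarith
    have v4 : 0 ≤ 60 * a - 30 * (cp * c) := by linarith
    have e : 6 * a * (2 + t) ^ 5 - 30 * cp * c * (2 + t) ^ 4 +
        4 * ((4 + 2 * c ^ 2) * cp - 6 * c * cs) * (2 + t) ^ 3 +
        9 * (1 + c ^ 2) * cs * (2 + t) ^ 2 - c ^ 2 =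
      (192 * a - 480 * (cp * c) + 128 * cp + 64 * (cp * c ^ 2) - 192 * (cs * c) +
          36 * cs + 36 * (cs * c ^ 2) - c ^ 2) +
        (480 * a - 960 * (cp * c) + 192 * cp + 96 * (cp * c ^ 2) - 288 * (cs * c) +
          36 * cs + 36 * (cs * c ^ 2)) * t +
        (480 * a - 720 * (cp * c) + 96 * cp + 48 * (cp * c ^ 2) - 144 * (cs * c) +
          9 * cs + 9 * (cs * c ^ 2)) * t ^ 2 +
        (240 * a - 240 * (cp * c) + 16 * cp + 8 * (cp * c ^ 2) - 24 * (cs * c)) * t ^ 3 +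
        (60 * a - 30 * (cp * c)) * t ^ 4 + 6 * a * t ^ 5 := by ring
    rw [e]
    have : 0 ≤ 6 * a * t ^ 5 := mul_nonneg (by linarith) (pow_nonneg ht 5)
    have := mul_nonneg v1 ht
    have := mul_nonneg v2 (sq_nonneg t)
    have := mul_nonneg v3 (pow_nonneg ht 3)
    have := mul_nonneg v4 (pow_nonneg ht 4)
    linarith

lemma f_nonneg {c r : ℝ} (hc : c ∈ Ioc (0 : ℝ) 1) (hr : 0 < r) : 0 ≤ f c r := by
  rw [← f_chord hc]
  have h2c : 2 * c ≤ 2 := by linarith [hc.2]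
  have hc2 : 0 < 2 * c := by linarith [hc.1]
  have hup : MonotoneOn (f c) (Icc (2 * c) 2) := by
    refine monotoneOn_of_hasDerivWithinAt_nonneg (f' := df c) (convex_Icc _ _)
      ((continuousOn_f c).mono fun y hy => hc2.trans_le hy.1) ?_ ?_ <;>
      rw [interior_Icc] <;> intro y hy
    · exact (hasDerivAt_f ⟨hc2.trans hy.1, hy.2⟩).hasDerivWithinAt
    · exact mul_nonneg (by linarith [hy.1])
        (brace_nonneg ⟨by linarith [hy.1], by linarith [hy.2]⟩ hc.1.le hc.2)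
  rcases le_total r (2 * c) with h | h
  · refine antitoneOn_of_hasDerivWithinAt_nonpos (f' := df c) (convex_Icc r (2 * c))
      ((continuousOn_f c).mono fun y hy => hr.trans_le hy.1) ?_ ?_
      ⟨le_rfl, h⟩ ⟨h, le_rfl⟩ h <;> rw [interior_Icc] <;> intro y hy
    · exact (hasDerivAt_f ⟨hr.trans hy.1, hy.2.trans_le h2c⟩).hasDerivWithinAt
    · exact mul_nonpos_of_nonpos_of_nonneg (by linarith [hy.2])
        (brace_nonneg ⟨by linarith [hy.1], by linarith [hy.2]⟩ hc.1.le hc.2)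
  rcases le_total r 2 with h' | h'
  · exact hup ⟨le_rfl, h2c⟩ ⟨h, h'⟩ h
  · exact (hup ⟨le_rfl, h2c⟩ ⟨h2c, le_rfl⟩ h2c).trans (f_mono_outer hc Set.self_mem_Ici h' h')

lemma pair {r c d : ℝ} (hr : 0 < r) (hc : 0 < c) (hc1 : c ≤ 1) (hd : 0 < d) (hd1 : d ≤ 1) :
    2 * c * d * (r + g c + g d) ≤
      r ^ (7 - 1) * (profQ 7 a K dK r c + profQ 7 a K dK r d) := by
  have hq : 0 ≤ profQ 7 a K dK r c + profQ 7 a K dK r d :=
    add_nonneg (Q_nonneg hr hc.le hc1) (Q_nonneg hr hd.le hd1)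
  rcases le_or_gt (r + g c + g d) 0 with h | h
  · exact (mul_nonpos_of_nonneg_of_nonpos (by positivity) h).trans (by positivity)
  set m := (c + d) / 2 with hm
  have hm' : m ∈ Ioc (0 : ℝ) 1 := ⟨by positivity, by linarith⟩
  have hcc : g c + g d ≤ 2 * g m := by
    rw [g_eq ⟨hc.le, hc1⟩, g_eq ⟨hd.le, hd1⟩, g_eq ⟨hm'.1.le, hm'.2⟩]
    have := concaveOn_gf.2 (show c ∈ Icc (0 : ℝ) 1 from ⟨hc.le, hc1⟩)
      (show d ∈ Icc (0 : ℝ) 1 from ⟨hd.le, hd1⟩) (by norm_num : (0 : ℝ) ≤ 1 / 2)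
      (by norm_num : (0 : ℝ) ≤ 1 / 2) (by norm_num)
    simp only [smul_eq_mul] at this
    rw [show 1 / 2 * c + 1 / 2 * d = m by rw [hm]; ring] at this
    linarith
  have hconv : 2 * profQ 7 a K dK r m ≤ profQ 7 a K dK r c + profQ 7 a K dK r d := by
    have := mul_nonneg (sub_nonneg.2 (dK_le hr)) (sq_nonneg (c - d))
    simp only [profQ, hm]
    nlinarith
  have hf := f_nonneg hm' hr
  rw [f_eq hr] at hf
  have hcd : c * d ≤ m ^ 2 := by rw [hm]; nlinarith [sq_nonneg (c - d)]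
  calc 2 * c * d * (r + g c + g d) ≤ 2 * m ^ 2 * (r + 2 * g m) := by
        have := mul_le_mul hcd (by linarith : r + g c + g d ≤ r + 2 * g m) h.le (sq_nonneg m)
        linarith
    _ ≤ r ^ (7 - 1) * (2 * profQ 7 a K dK r m) := by norm_num; linarith
    _ ≤ _ := mul_le_mul_of_nonneg_left hconv (by positivity)

lemma g_nonpos {c : ℝ} (hc : c ∈ Icc (0 : ℝ) 1) : g c ≤ 0 := (g_eq hc).le.trans (gf_nonpos hc)

lemma balance (hn : 0 < 7) : a * (7 : ℕ) * omega 7 = omega 7 + 2 * (7 : ℕ) *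
    ∫ v in Metric.ball (0 : E 7) 1 ∩ {v | 0 < v ⟨0, hn⟩},
      g (v ⟨0, hn⟩ / ‖v‖) * (v ⟨0, hn⟩ / ‖v‖) := by
  have h := law_odd 2 hn (F := fun c => g c * c) (continuous_g.mul continuous_id)
  have hJ : ∫ c in (0 : ℝ)..1, g c * c * (1 - c ^ 2) ^ 2 = 8 * a / 15 - 8 / 105 := by
    rw [← gf_balance]
    refine intervalIntegral.integral_congr fun c hc => ?_
    rw [uIcc_of_le zero_le_one] at hc
    simp [g_eq hc]
  have hW : ∫ c in (0 : ℝ)..1, (1 - c ^ 2) ^ 2 = 8 / 15 := by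
    have hd : ∀ c ∈ uIcc (0 : ℝ) 1, HasDerivAt (fun c : ℝ => c - 2 / 3 * c ^ 3 + c ^ 5 / 5)
        ((1 - c ^ 2) ^ 2) c := fun c _ => by
      refine (((hasDerivAt_id c).sub ((hasDerivAt_pow 3 c).const_mul (2 / 3))).add
        ((hasDerivAt_pow 5 c).div_const 5)).congr_deriv ?_
      push_cast; ring
    rw [intervalIntegral.integral_eq_sub_of_hasDerivAt hd
      (Continuous.intervalIntegrable (by fun_prop) _ _)]
    norm_num
  rw [hJ, hW] at h
  have h' : (8 / 15 : ℝ) * ∫ v in Metric.ball (0 : E 7) 1 ∩ {v | 0 < v ⟨0, hn⟩},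
      g (v ⟨0, hn⟩ / ‖v‖) * (v ⟨0, hn⟩ / ‖v‖) = omega 7 / 2 * (8 * a / 15 - 8 / 105) := h
  simp only [Nat.cast_ofNat]
  linarith

/-- The profile in dimension seven. -/
def profile : Profile 7 where
  a := a
  a_nonneg := by linarith [a_bounds.1]
  g := g
  g_cont := continuous_g
  g_nonpos _ hc := g_nonpos hc
  K := K
  dK := dK
  hasDeriv _ hr := hasDerivAt_K hr
  dK_cont := continuousOn_dK
  K_nonneg _ hr := K_nonneg hr
  dK_le _ hr := dK_le hr
  Q_nonneg _ _ hr h0 h1 := Q_nonneg hr h0 h1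
  pair _ _ _ hr hc hc1 hd hd1 := pair hr hc hc1 hd hd1
  balance := balance

end

end Vale.Agent.P219.CH.Cert.Seven

namespace Vale.Agent.P219.CH

/-- The certificate in dimension seven. -/
noncomputable def cert7 : Cert 7 := Cert.Seven.profile.toCert (by norm_num)

end Vale.Agent.P219.CH
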