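import Vale.Agent.P219.CH.Cert.Moments

/-!
P219: the chord certificate in dimension six, `K(r) = 1/(36 r)`, `a = 17/360`,
`g c = -(2/3 c + 2/15 c^3)`.
-/

namespace Vale.Agent.P219.CH.Cert.Six

open MeasureTheory Set Filter Topology

noncomputable section

/-- The additive constant. -/
noncomputable def a : ℝ := 17 / 360

/-- The profile of the vector field. -/
noncomputable def K (r : ℝ) : ℝ := 1 / (36 * r)

/-- The derivative of the profile. -/
noncomputable def dK (r : ℝ) : ℝ := -(1 / (36 * r ^ 2))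

/-- The chord function `a + (1-d²)K' + (K/r)(n-2+d²) - H K d` for `n = 6`, `H = 5`. -/
noncomputable def Q (r d : ℝ) : ℝ := a + (1 - d ^ 2) * dK r + K r / r * (4 + d ^ 2) - 5 * K r * d

/-- The endpoint weight. -/
noncomputable def g (c : ℝ) : ℝ := -(2 / 3 * c + 2 / 15 * c ^ 3)

lemma hasDerivAt_K {r : ℝ} (hr : r ≠ 0) : HasDerivAt K (dK r) r := by
  have h := (hasDerivAt_inv hr).const_mul (1 / 36 : ℝ)
  have e : K = fun r : ℝ => 1 / 36 * r⁻¹ := by funext x; unfold K; ring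
  rw [e]
  refine h.congr_deriv ?_
  unfold dK; ring

lemma K_nonneg {r : ℝ} (hr : 0 ≤ r) : 0 ≤ K r := by unfold K; positivity

lemma Q_eq {r : ℝ} (hr : r ≠ 0) (d : ℝ) :
    36 * r ^ 2 * Q r d = 17 / 10 * r ^ 2 - 5 * d * r + (3 + 2 * d ^ 2) := by
  unfold Q a K dK
  field_simp
  ring

lemma quad_nonneg {d : ℝ} (hd : d ^ 2 ≤ 1) (r : ℝ) :
    0 ≤ 17 / 10 * r ^ 2 - 5 * d * r + (3 + 2 * d ^ 2) := by
  nlinarith [sq_nonneg (17 / 5 * r - 5 * d)]

theorem Q_nonneg {r d : ℝ} (hr : 0 < r) (hd : d ^ 2 ≤ 1) : 0 ≤ Q r d := by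
  have h := quad_nonneg hd r
  rw [← Q_eq hr.ne' d] at h
  exact nonneg_of_mul_nonneg_right h (by positivity)

/-- The polynomial form of the pair inequality. -/
theorem pair_poly {r c d : ℝ} (hr : 0 ≤ r) (hc : 0 ≤ c) (hd : 0 ≤ d) :
    0 ≤ r ^ 3 * (17 / 5 * r ^ 2 + 6 + 2 * c ^ 2 + 2 * d ^ 2 - 5 * r * (c + d)) +
      2 * (c * d) * (24 * (c + d) + 24 / 5 * (c ^ 3 + d ^ 3) - 36 * r) := by
  obtain ⟨s, hs⟩ : ∃ s, s = c + d := ⟨_, rfl⟩
  obtain ⟨p, hp⟩ : ∃ p, p = c * d := ⟨_, rfl⟩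
  have hs0 : 0 ≤ s := by linarith
  have hp0 : 0 ≤ p := hp ▸ mul_nonneg hc hd
  have hp1 : p ≤ s ^ 2 / 4 := by subst hs hp; nlinarith [sq_nonneg (c - d)]
  -- the form is concave in `p`: it is checked at `p = 0` and at `c = d = s / 2`
  set A := r ^ 3 * (17 / 5 * r ^ 2 - 5 * s * r + 6 + 2 * s ^ 2) with hA
  set B := -4 * r ^ 3 - 72 * r + 48 * s + 48 / 5 * s ^ 3 with hB
  have e : r ^ 3 * (17 / 5 * r ^ 2 + 6 + 2 * c ^ 2 + 2 * d ^ 2 - 5 * r * (c + d)) +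
      2 * (c * d) * (24 * (c + d) + 24 / 5 * (c ^ 3 + d ^ 3) - 36 * r) =
      A + B * p - 144 / 5 * s * p ^ 2 := by
    subst hs hp; simp only [hA, hB]; ring
  rw [e]
  have h0 : 0 ≤ A := mul_nonneg (pow_nonneg hr 3) (by
    nlinarith [sq_nonneg (17 / 5 * r - 5 / 2 * s)])
  have h1 : A + B * (s ^ 2 / 4) - 144 / 5 * s * (s ^ 2 / 4) ^ 2 =
      (r - s) ^ 2 * (6 * (r + 2 * s) +
        (17 / 5 * r ^ 3 + 9 / 5 * r ^ 2 * s + 6 / 5 * r * s ^ 2 + 3 / 5 * s ^ 3)) := by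
    simp only [hA, hB]; ring
  have h1' : 0 ≤ A + B * (s ^ 2 / 4) - 144 / 5 * s * (s ^ 2 / 4) ^ 2 := by
    rw [h1]; positivity
  rcases (sq_nonneg s).eq_or_lt with h | h
  · have : p = 0 := by linarith
    subst this; simpa using h0
  have h2 : 0 ≤ 144 / 5 * s * (p * (s ^ 2 / 4 - p)) :=
    mul_nonneg (by positivity) (mul_nonneg hp0 (by linarith))
  have h3 : (s ^ 2 / 4) * (A + B * p - 144 / 5 * s * p ^ 2) =
      (s ^ 2 / 4 - p) * A + p * (A + B * (s ^ 2 / 4) - 144 / 5 * s * (s ^ 2 / 4) ^ 2) +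
        (s ^ 2 / 4) * (144 / 5 * s * (p * (s ^ 2 / 4 - p))) := by ring
  have h4 : 0 ≤ (s ^ 2 / 4) * (A + B * p - 144 / 5 * s * p ^ 2) := by
    rw [h3]
    have := mul_nonneg (by linarith : 0 ≤ s ^ 2 / 4 - p) h0
    have := mul_nonneg hp0 h1'
    have := mul_nonneg (by positivity : (0:ℝ) ≤ s ^ 2 / 4) h2
    linarith
  exact nonneg_of_mul_nonneg_right h4 (by positivity)

/-- The pair inequality: `r⁵ (Q(r,c) + Q(r,d)) ≥ 2 c d (r + g c + g d)`. -/
theorem pair {r c d : ℝ} (hr : 0 < r) (hc : 0 ≤ c) (hd : 0 ≤ d) :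
    2 * c * d * (r + g c + g d) ≤ r ^ 5 * (Q r c + Q r d) := by
  have h := pair_poly hr.le hc hd
  have e : 36 * (r ^ 5 * (Q r c + Q r d)) = r ^ 3 * (36 * r ^ 2 * Q r c + 36 * r ^ 2 * Q r d) := by
    ring
  rw [Q_eq hr.ne' c, Q_eq hr.ne' d] at e
  unfold g
  nlinarith [h, e]

/-- The regularised field, extended linearly to `s ≤ 0`. -/
def phi (σ s : ℝ) : ℝ :=
  1 / 36 * if s ≤ 0 then (σ ^ 2 - s) / σ ^ 4 else 1 / (σ ^ 2 + s)

lemma hasDerivAt_phi {σ : ℝ} (hσ : 0 < σ) (s : ℝ) :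
    HasDerivAt (phi σ) (-(1 / 36) / (σ ^ 2 + max s 0) ^ 2) s := by
  have hl : ∀ x, HasDerivAt (fun y => 1 / 36 * ((σ ^ 2 - y) / σ ^ 4))
      (-(1 / 36) / (σ ^ 2) ^ 2) x := fun x => by
    have h := ((((hasDerivAt_id x).const_sub (σ ^ 2)).div_const (σ ^ 4)).const_mul (1 / 36 : ℝ))
    refine h.congr_deriv ?_
    ring
  have hr : ∀ x, 0 ≤ x → HasDerivAt (fun y => 1 / 36 * (1 / (σ ^ 2 + y)))
      (-(1 / 36) / (σ ^ 2 + x) ^ 2) x := fun x hx => by
    have hne : σ ^ 2 + x ≠ 0 := by positivity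
    have h := ((((hasDerivAt_id x).const_add (σ ^ 2)).inv hne).const_mul (1 / 36 : ℝ))
    simp only [id_eq] at h
    refine (h.congr_of_eventuallyEq (Eventually.of_forall fun y => ?_)).congr_deriv ?_
    · simp [one_div]
    · ring
  rcases lt_trichotomy s 0 with hs | hs | hs
  · rw [max_eq_right hs.le, add_zero]
    refine (hl s).congr_of_eventuallyEq ?_
    filter_upwards [Iio_mem_nhds hs] with y hy
    simp [phi, le_of_lt (show y < 0 from hy)]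
  · subst hs
    rw [max_self, add_zero]
    have h1 : HasDerivWithinAt (phi σ) (-(1 / 36) / (σ ^ 2) ^ 2) (Iic 0) 0 :=
      (hl 0).hasDerivWithinAt.congr (fun y hy => by simp [phi, show y ≤ 0 from hy]) (by simp [phi])
    have e : ∀ y : ℝ, 0 ≤ y → phi σ y = 1 / 36 * (1 / (σ ^ 2 + y)) := fun y hy => by
      rcases hy.eq_or_lt with rfl | h
      · simp [phi]; field_simp
      · simp [phi, not_le.2 h]
    have h2 : HasDerivWithinAt (phi σ) (-(1 / 36) / (σ ^ 2) ^ 2) (Ici 0) 0 := by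
      have h := ((hr 0 le_rfl).hasDerivWithinAt (s := Ici 0)).congr (fun y hy => e y hy) (e 0 le_rfl)
      rwa [add_zero] at h
    simpa [hasDerivWithinAt_univ] using h1.union h2
  · rw [max_eq_left hs.le]
    refine (hr s hs.le).congr_of_eventuallyEq ?_
    filter_upwards [Ioi_mem_nhds hs] with y hy
    simp [phi, not_le.2 (show 0 < y from hy)]

lemma contDiff_phi {σ : ℝ} (hσ : 0 < σ) : ContDiff ℝ 1 (phi σ) := by
  refine contDiff_one_iff_deriv.2 ⟨fun s => (hasDerivAt_phi hσ s).differentiableAt, ?_⟩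
  rw [show deriv (phi σ) = fun s => -(1 / 36) / (σ ^ 2 + max s 0) ^ 2 from
    funext fun s => (hasDerivAt_phi hσ s).deriv]
  exact continuous_const.div (by fun_prop) fun s => pow_ne_zero 2 (by
    have := le_max_right s 0
    have : (0 : ℝ) < σ ^ 2 := pow_pos hσ 2
    linarith)

lemma phi_nonneg {σ : ℝ} (hσ : 0 < σ) {s : ℝ} (hs : 0 ≤ s) : 0 ≤ phi σ s := by
  unfold phi
  split_ifs with h
  · have : s = 0 := le_antisymm h hs
    subst this; rw [sub_zero]; positivity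
  · positivity

lemma phi_sq {σ : ℝ} (hσ : 0 < σ) (r : ℝ) : phi σ (r ^ 2) = 1 / (36 * (σ ^ 2 + r ^ 2)) := by
  unfold phi
  split_ifs with h
  · rw [le_antisymm h (sq_nonneg r)]; field_simp; ring
  · rw [one_div_mul_one_div]

/-- The regularised kernel dominates `r² / (r² + σ²)` times the singular one. -/
lemma kernel_ge {σ : ℝ} (hσ : 0 < σ) (r : ℝ) {d : ℝ} (hd : d ^ 2 ≤ 1) :
    17 / 10 * r ^ 2 - 5 * d * r + (3 + 2 * d ^ 2) ≤
      36 * (σ ^ 2 + r ^ 2) * kernelQ 6 a (phi σ) r d := by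
  have hD : 0 < σ ^ 2 + r ^ 2 := by positivity
  have e : 36 * (σ ^ 2 + r ^ 2) * kernelQ 6 a (phi σ) r d =
      17 / 10 * (σ ^ 2 + r ^ 2) + 5 - 5 * r * d - 2 * (1 - d ^ 2) * (r ^ 2 / (σ ^ 2 + r ^ 2)) := by
    rw [kernelQ, (hasDerivAt_phi hσ _).deriv, max_eq_left (sq_nonneg r), phi_sq hσ, a]
    push_cast
    field_simp
    ring
  rw [e]
  have h1 : r ^ 2 / (σ ^ 2 + r ^ 2) ≤ 1 := by rw [div_le_one hD]; nlinarith
  nlinarith [mul_le_mul_of_nonneg_left h1 (by linarith : (0 : ℝ) ≤ 1 - d ^ 2), sq_nonneg σ]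

lemma kernel_nonneg {σ : ℝ} (hσ : 0 < σ) (r : ℝ) {d : ℝ} (hd : d ^ 2 ≤ 1) :
    0 ≤ kernelQ 6 a (phi σ) r d :=
  nonneg_of_mul_nonneg_right ((quad_nonneg hd r).trans (kernel_ge hσ r hd)) (by positivity)

lemma pair_reg {σ : ℝ} (hσ : 0 < σ) {r c d : ℝ} (hr : 0 < r) (hc : 0 < c) (hc1 : c ≤ 1)
    (hd : 0 < d) (hd1 : d ≤ 1) :
    r - σ + g c + g d ≤
      r ^ (6 - 1) * (kernelQ 6 a (phi σ) r c + kernelQ 6 a (phi σ) r d) / (2 * c * d) := by
  have hc2 : c ^ 2 ≤ 1 := by nlinarith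
  have hd2 : d ^ 2 ≤ 1 := by nlinarith
  have hD : 0 < σ ^ 2 + r ^ 2 := by positivity
  rw [le_div_iff₀ (by positivity)]
  set X := r + g c + g d with hX
  set R := r ^ (6 - 1) * (kernelQ 6 a (phi σ) r c + kernelQ 6 a (phi σ) r d) with hR
  have hR0 : 0 ≤ R :=
    mul_nonneg (by positivity) (add_nonneg (kernel_nonneg hσ r hc2) (kernel_nonneg hσ r hd2))
  have hR1 : r ^ 2 * (2 * c * d * X) ≤ (σ ^ 2 + r ^ 2) * R := by
    have h0 := pair hr hc.le hd.le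
    have h1 : r ^ 5 * (36 * r ^ 2 * Q r c + 36 * r ^ 2 * Q r d) ≤
        r ^ 5 * (36 * (σ ^ 2 + r ^ 2) * kernelQ 6 a (phi σ) r c +
          36 * (σ ^ 2 + r ^ 2) * kernelQ 6 a (phi σ) r d) := by
      rw [Q_eq hr.ne', Q_eq hr.ne']
      exact mul_le_mul_of_nonneg_left
        (add_le_add (kernel_ge hσ r hc2) (kernel_ge hσ r hd2)) (by positivity)
    have h2 := mul_le_mul_of_nonneg_left h0 (sq_nonneg r)
    rw [hR, show (6 - 1 : ℕ) = 5 from rfl, hX]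
    linarith
  rcases le_or_gt X σ with h | h
  · have h2 : (r - σ + g c + g d) * (2 * c * d) ≤ 0 :=
      mul_nonpos_of_nonpos_of_nonneg (by linarith) (by positivity)
    linarith
  have hXr : X ≤ r := by
    have e : ∀ x : ℝ, 0 ≤ x → g x ≤ 0 := fun x hx => by unfold g; simp only [Left.neg_nonpos_iff]; positivity
    linarith [e c hc.le, e d hd.le]
  have h2 : (σ ^ 2 + r ^ 2) * (X - σ) ≤ r ^ 2 * X := by
    nlinarith [mul_le_mul_of_nonneg_left hXr (sq_nonneg σ), sq_nonneg (σ - r)]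
  refine le_of_mul_le_mul_left ?_ hD
  calc (σ ^ 2 + r ^ 2) * ((r - σ + g c + g d) * (2 * c * d))
      = (σ ^ 2 + r ^ 2) * (X - σ) * (2 * c * d) := by rw [hX]; ring
    _ ≤ r ^ 2 * X * (2 * c * d) := mul_le_mul_of_nonneg_right h2 (by positivity)
    _ ≤ (σ ^ 2 + r ^ 2) * R := by linarith

lemma balance : ∀ hn : 0 < 6, a * (6 : ℕ) * omega 6 = omega 6 + 2 * (6 : ℕ) *
    ∫ v in Metric.ball (0 : E 6) 1 ∩ {v | 0 < v ⟨0, hn⟩},
      g (v ⟨0, hn⟩ / ‖v‖) * (v ⟨0, hn⟩ / ‖v‖) := by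
  intro hn
  set i : Fin 6 := ⟨0, hn⟩
  have e : (fun v : E 6 => g (v i / ‖v‖) * (v i / ‖v‖)) =
      fun v => -(2 / 3) * cosc i v ^ 2 + -(2 / 15) * cosc i v ^ 4 := by
    funext v; simp only [g, cosc]; ring
  have p2 : IntegrableOn (fun v => -(2 / 3 : ℝ) * cosc i v ^ 2) (Metric.ball (0 : E 6) 1) :=
    (integrableOn_ball (measurable_pow_cosc i 2) (bound_pow_cosc i 2)).const_mul _
  have p4 : IntegrableOn (fun v => -(2 / 15 : ℝ) * cosc i v ^ 4) (Metric.ball (0 : E 6) 1) :=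
    (integrableOn_ball (measurable_pow_cosc i 4) (bound_pow_cosc i 4)).const_mul _
  have p24 : IntegrableOn (fun v => -(2 / 3 : ℝ) * cosc i v ^ 2 + -(2 / 15 : ℝ) * cosc i v ^ 4)
      (Metric.ball (0 : E 6) 1) := p2.add p4
  rw [e, integral_half hn (fun v => by simp only [cosc, PiLp.neg_apply, norm_neg]; ring)
    p24, integral_add p2 p4, integral_const_mul, integral_const_mul, cosc_two hn,
    cosc_four hn, a]
  push_cast
  ring

end

end Vale.Agent.P219.CH.Cert.Six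

namespace Vale.Agent.P219.CH

open Cert.Six in
/-- The certificate in dimension six. -/
noncomputable def cert6 : Cert 6 where
  a := Cert.Six.a
  a_nonneg := by norm_num [Cert.Six.a]
  g := Cert.Six.g
  g_cont := by unfold Cert.Six.g; fun_prop
  g_nonpos c hc := by
    have := hc.1
    unfold Cert.Six.g; simp only [Left.neg_nonpos_iff]; positivity
  approx σ hσ := ⟨phi σ, contDiff_phi hσ, fun s hs => phi_nonneg hσ hs,
    fun r d _ hd => kernel_nonneg hσ r ((sq_le_one_iff_abs_le_one d).2 hd),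
    fun r c d hr hc hc1 hd hd1 => pair_reg hσ hr hc hc1 hd hd1⟩
  balance := Cert.Six.balance

end Vale.Agent.P219.CH
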